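import Vale.Agent.P090.Prob

/-!
Graphs of polynomials as labels, cut functions, and random phase fields.
-/

namespace Vale.Agent.P090

noncomputable section

open Finset
open scoped symmDiff

section card

variable {α : Type} [DecidableEq α]

theorem card_symmDiff_inter_le (X Y W : Finset α) :
    ((X ∆ Y) ∩ W).card ≤ (X ∩ W).card + (Y ∩ W).card := by
  refine le_trans (Finset.card_le_card ?_) (Finset.card_union_le _ _)
  intro a ha
  simp only [Finset.mem_inter, Finset.mem_symmDiff, Finset.mem_union] at ha ⊢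
  tauto

theorem abs_card_inter_symmDiff (X Y W : Finset α) :
    |(((X ∆ Y) ∩ W).card : ℝ) - ((X ∩ W).card : ℝ)| ≤ ((Y ∩ W).card : ℝ) := by
  have h1 := card_symmDiff_inter_le X Y W
  have h2 := card_symmDiff_inter_le (X ∆ Y) Y W
  rw [symmDiff_symmDiff_cancel_right] at h2
  rw [abs_le]
  have h1' : (((X ∆ Y) ∩ W).card : ℝ) ≤ ((X ∩ W).card : ℝ) + ((Y ∩ W).card : ℝ) := by
    exact_mod_cast h1
  have h2' : ((X ∩ W).card : ℝ) ≤ (((X ∆ Y) ∩ W).card : ℝ) + ((Y ∩ W).card : ℝ) := by
    exact_mod_cast h2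
  constructor <;> linarith

theorem card_symmDiff_sdiff_le (X Y W : Finset α) :
    ((X ∆ Y) \ W).card ≤ (X \ W).card + Y.card := by
  refine le_trans (Finset.card_le_card ?_) (Finset.card_union_le _ _)
  intro a ha
  simp only [Finset.mem_sdiff, Finset.mem_symmDiff, Finset.mem_union] at ha ⊢
  tauto

theorem abs_card_sdiff_symmDiff (X Y W : Finset α) :
    |(((X ∆ Y) \ W).card : ℝ) - ((X \ W).card : ℝ)| ≤ (Y.card : ℝ) := by
  have h1 := card_symmDiff_sdiff_le X Y W
  have h2 := card_symmDiff_sdiff_le (X ∆ Y) Y W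
  rw [symmDiff_symmDiff_cancel_right] at h2
  rw [abs_le]
  have h1' : (((X ∆ Y) \ W).card : ℝ) ≤ ((X \ W).card : ℝ) + (Y.card : ℝ) := by exact_mod_cast h1
  have h2' : ((X \ W).card : ℝ) ≤ (((X ∆ Y) \ W).card : ℝ) + (Y.card : ℝ) := by exact_mod_cast h2
  constructor <;> linarith

theorem symmDiff_sdiff_self' (X W : Finset α) : (X ∆ W) \ W = X \ W := by
  ext a; simp only [Finset.mem_sdiff, Finset.mem_symmDiff]; tauto

/-- The side of a point relative to an edge with label `W`. -/
def zeta (W D : Finset α) : ℝ := (2 * ((D ∩ W).card : ℝ) - W.card) / W.card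

theorem abs_zeta_le_one (W D : Finset α) : |zeta W D| ≤ 1 := by
  rcases Nat.eq_zero_or_pos W.card with h | h
  · simp [zeta, h]
  · have hW : (0 : ℝ) < W.card := by exact_mod_cast h
    have hle : ((D ∩ W).card : ℝ) ≤ W.card := by
      exact_mod_cast Finset.card_le_card Finset.inter_subset_right
    rw [zeta, abs_div, abs_of_pos hW, div_le_one hW, abs_le]
    have : (0 : ℝ) ≤ (D ∩ W).card := Nat.cast_nonneg _
    constructor <;> linarith

theorem zeta_flip (W D : Finset α) : zeta W (D ∆ W) = -zeta W D := by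
  have h : ((D ∆ W) ∩ W).card + (D ∩ W).card = W.card := by
    rw [← Finset.card_union_of_disjoint]
    · congr 1
      ext a; simp only [Finset.mem_union, Finset.mem_inter, Finset.mem_symmDiff]; tauto
    · rw [Finset.disjoint_left]
      intro a; simp only [Finset.mem_inter, Finset.mem_symmDiff]; tauto
  have h' : (((D ∆ W) ∩ W).card : ℝ) + ((D ∩ W).card : ℝ) = (W.card : ℝ) := by exact_mod_cast h
  simp only [zeta]
  rw [← neg_div]; congr 1; linarith

theorem abs_zeta_sub_le (W D Y : Finset α) :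
    |zeta W (D ∆ Y) - zeta W D| ≤ 2 * ((Y ∩ W).card : ℝ) / W.card := by
  have e : zeta W (D ∆ Y) - zeta W D
      = 2 * ((((D ∆ Y) ∩ W).card : ℝ) - ((D ∩ W).card : ℝ)) / W.card := by
    simp only [zeta, div_sub_div_same]; ring
  rw [e, abs_div, Nat.abs_cast, abs_mul, abs_two]
  exact div_le_div_of_nonneg_right
    (mul_le_mul_of_nonneg_left (abs_card_inter_symmDiff D Y W) (by norm_num)) (Nat.cast_nonneg _)

theorem zeta_add_one (W D : Finset α) (hW : 0 < W.card) :
    zeta W D + 1 = 2 * ((D ∩ W).card : ℝ) / W.card := by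
  have hW' : (W.card : ℝ) ≠ 0 := by exact_mod_cast hW.ne'
  simp only [zeta]; field_simp; ring

/-- A cut function of a real variable: `1` below `r` and `0` above `2r`. -/
def ramp (r h : ℝ) : ℝ := max 0 (min 1 (2 - h / r))

theorem ramp_nonneg (r h : ℝ) : 0 ≤ ramp r h := le_max_left _ _

theorem ramp_le_one (r h : ℝ) : ramp r h ≤ 1 := max_le zero_le_one (min_le_left _ _)

theorem ramp_eq_one {r h : ℝ} (hr : 0 < r) (h1 : h ≤ r) : ramp r h = 1 := by
  have : 1 ≤ 2 - h / r := by
    have : h / r ≤ 1 := (div_le_one hr).mpr h1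
    linarith
  simp [ramp, min_eq_left this]

theorem ramp_eq_zero {r h : ℝ} (hr : 0 < r) (h1 : 2 * r ≤ h) : ramp r h = 0 := by
  have : 2 - h / r ≤ 0 := by
    have : 2 ≤ h / r := (le_div_iff₀ hr).mpr h1
    linarith
  simp [ramp, this]

theorem abs_ramp_sub_le {r : ℝ} (hr : 0 < r) (a b : ℝ) : |ramp r a - ramp r b| ≤ |a - b| / r := by
  refine (abs_max_sub_max_le_max _ _ _ _).trans ?_
  simp only [sub_self, abs_zero]
  refine max_le (by positivity) ((abs_min_sub_min_le_max _ _ _ _).trans ?_)
  simp only [sub_self, abs_zero]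
  refine max_le (by positivity) (le_of_eq ?_)
  rw [show 2 - a / r - (2 - b / r) = -((a - b) / r) by ring, abs_neg, abs_div, abs_of_pos hr]

end card

/-- Positions: a column and a value. -/
abbrev Pos (w q : ℕ) : Type := Fin w × ZMod q

/-- Bits: a position and a side. -/
abbrev Bit (w q : ℕ) : Type := Pos w q × Bool

section graph

variable {w q n : ℕ}

/-- Value of a polynomial with given coefficients at a column. -/
def polyVal (a : Fin n → ZMod q) (t : Fin w) : ZMod q :=
  ∑ j : Fin n, a j * (((t : ℕ) : ZMod q)) ^ (j : ℕ)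

theorem card_agree_le [Fact q.Prime] (hwq : w ≤ q) {a b : Fin n → ZMod q} (hab : a ≠ b) :
    (univ.filter fun t : Fin w => polyVal a t = polyVal b t).card ≤ n := by
  by_contra h
  push Not at h
  obtain ⟨s, hs, hcard⟩ := Finset.exists_subset_card_eq h.le
  let e := (s.equivFinOfCardEq hcard).symm
  let x : Fin n → ZMod q := fun i => (((e i : Fin w) : ℕ) : ZMod q)
  have hx : Function.Injective x := by
    intro i j hij
    have hi := congrArg ZMod.val hij
    simp only [x] at hi
    rw [ZMod.val_natCast_of_lt ((e i).1.isLt.trans_le hwq),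
      ZMod.val_natCast_of_lt ((e j).1.isLt.trans_le hwq)] at hi
    exact e.injective (Subtype.ext (Fin.ext hi))
  have hz : ∀ i : Fin n, ∑ j : Fin n, (a j - b j) * x i ^ (j : ℕ) = 0 := by
    intro i
    have hi := (Finset.mem_filter.mp (hs (e i).2)).2
    simp only [polyVal] at hi
    simp only [sub_mul, Finset.sum_sub_distrib, x]
    exact sub_eq_zero.mpr hi
  exact hab (funext fun j => sub_eq_zero.mp
    (congrFun (Matrix.eq_zero_of_forall_index_sum_mul_pow_eq_zero (v := fun j => a j - b j) hx hz) j))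

/-- The label attached to a column function and a seed: the side not read by the seed. -/
def label [NeZero q] (val : Fin w → ZMod q) (g : Pos w q → Bool × Bool) : Finset (Bit w q) :=
  univ.image fun t => ((t, val t), !(g (t, val t)).1)

/-- The bits read by a seed. -/
def readSet [NeZero q] (g : Pos w q → Bool × Bool) : Finset (Bit w q) :=
  univ.filter fun b => g b.1 = (b.2, true)

theorem card_label [NeZero q] (val : Fin w → ZMod q) (g : Pos w q → Bool × Bool) :
    (label val g).card = w := by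
  rw [label, Finset.card_image_of_injective _ (fun t s h => congrArg (fun z => z.1.1) h)]
  simp

theorem label_inter_readSet [NeZero q] (val : Fin w → ZMod q) (g : Pos w q → Bool × Bool) :
    label val g ∩ readSet g = ∅ := by
  rw [Finset.eq_empty_iff_forall_notMem]
  intro b hb
  simp only [Finset.mem_inter, label, readSet, Finset.mem_image, Finset.mem_univ, true_and,
    Finset.mem_filter] at hb
  obtain ⟨⟨t, rfl⟩, h2⟩ := hb
  simp [Prod.ext_iff] at h2

theorem card_label_inter_le [NeZero q] (v v' : Fin w → ZMod q) (g g' : Pos w q → Bool × Bool) :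
    (label v g ∩ label v' g').card ≤ (univ.filter fun t => v t = v' t).card := by
  refine Finset.card_le_card_of_injOn (fun b => b.1.1) (fun b hb => ?_) ?_
  · simp only [Finset.coe_inter, Set.mem_inter_iff, Finset.mem_coe, label, Finset.mem_image,
      Finset.mem_univ, true_and] at hb
    obtain ⟨⟨t, rfl⟩, s, hs⟩ := hb
    have h1 : s = t := congrArg (fun z => z.1.1) hs
    subst h1
    simp only [Finset.coe_filter, Finset.mem_univ, true_and, Set.mem_setOf_eq]
    exact (congrArg (fun z => z.1.2) hs).symm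
  · intro b hb b' hb' h
    simp only [Finset.coe_inter, Set.mem_inter_iff, Finset.mem_coe, label, Finset.mem_image,
      Finset.mem_univ, true_and] at hb hb'
    obtain ⟨⟨t, rfl⟩, -⟩ := hb
    obtain ⟨⟨t', rfl⟩, -⟩ := hb'
    simp only at h
    subst h
    rfl

/-- Coefficients of a child polynomial: three free low coefficients and given high ones. -/
def coefs (β : Fin 3 → ZMod q) (hi : Fin n → ZMod q) : Fin (3 + n) → ZMod q := Fin.append β hi

theorem coefs_inj {β β' : Fin 3 → ZMod q} {hi hi' : Fin n → ZMod q}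
    (h : coefs β hi = coefs β' hi') : β = β' ∧ hi = hi' := by
  constructor
  · funext i
    have := congrFun h (Fin.castAdd n i)
    simpa [coefs] using this
  · funext i
    have := congrFun h (Fin.natAdd 3 i)
    simpa [coefs] using this

theorem card_through_le [Fact q.Prime] (hi : Fin n → ZMod q) (t : Fin w) (v : ZMod q) :
    (univ.filter fun β : Fin 3 → ZMod q => polyVal (coefs β hi) t = v).card ≤ q ^ 2 := by
  have h : (univ.filter fun β : Fin 3 → ZMod q => polyVal (coefs β hi) t = v).card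
      ≤ (univ : Finset (ZMod q × ZMod q)).card := by
    refine Finset.card_le_card_of_injOn (fun β => (β 1, β 2)) (fun β _ => by simp) ?_
    intro β hβ β' hβ' h
    simp only [Prod.mk.injEq] at h
    simp only [Finset.coe_filter, Finset.mem_univ, true_and, Set.mem_setOf_eq] at hβ hβ'
    have e : ∀ γ : Fin 3 → ZMod q, polyVal (coefs γ hi) t
        = γ 0 + γ 1 * (((t : ℕ) : ZMod q)) + γ 2 * (((t : ℕ) : ZMod q)) ^ 2
          + ∑ j : Fin n, hi j * (((t : ℕ) : ZMod q)) ^ (3 + (j : ℕ)) := by
      intro γ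
      simp [polyVal, coefs, Fin.sum_univ_add, Fin.sum_univ_three, Fin.append_left,
        Fin.append_right]
    rw [e] at hβ hβ'
    rw [h.1, h.2] at hβ
    have h0 : β 0 = β' 0 := by linear_combination hβ - hβ'
    funext i
    fin_cases i
    · exact h0
    · exact h.1
    · exact h.2
  simpa [sq] using h

theorem sum_inter_label_le [Fact q.Prime] (hi : Fin n → ZMod q) (g : Pos w q → Bool × Bool)
    (D : Finset (Bit w q)) :
    ∑ β : Fin 3 → ZMod q, (D ∩ label (polyVal (coefs β hi)) g).card ≤ D.card * q ^ 2 := by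
  have e : ∀ β : Fin 3 → ZMod q, (D ∩ label (polyVal (coefs β hi)) g).card
      = ∑ b ∈ D, if b ∈ label (polyVal (coefs β hi)) g then 1 else 0 := by
    intro β; rw [← Finset.card_filter, ← Finset.filter_mem_eq_inter]
  simp only [e]
  rw [Finset.sum_comm, ← smul_eq_mul]
  refine Finset.sum_le_card_nsmul _ _ _ fun b _ => ?_
  rw [← Finset.card_filter]
  refine le_trans (Finset.card_le_card ?_) (card_through_le hi b.1.1 b.1.2)
  intro β hβ
  simp only [Finset.mem_filter, Finset.mem_univ, true_and, label, Finset.mem_image] at hβ ⊢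
  obtain ⟨t, rfl⟩ := hβ
  rfl

end graph

section phase

variable {K : ℕ} [NeZero K]

instance : NeZero (4 * K) := ⟨mul_ne_zero (by norm_num) (NeZero.ne K)⟩

/-- Cyclic distance to `0`. -/
def cdist (t : ZMod (4 * K)) : ℕ := min t.val (4 * K - t.val)

/-- A trapezoid wave with zero mean. -/
def wave (t : ZMod (4 * K)) : ℝ := max (-1) (min 1 (2 * ((K : ℝ) - (cdist t : ℝ)) / K))

theorem abs_wave_le (t : ZMod (4 * K)) : |wave t| ≤ 1 :=
  abs_le.mpr ⟨le_max_left _ _, max_le (by norm_num) (min_le_left _ _)⟩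

theorem wave_half_period (t : ZMod (4 * K)) :
    wave (t + ((2 * K : ℕ) : ZMod (4 * K))) = -wave t := by
  have hKpos := Nat.pos_of_ne_zero (NeZero.ne K)
  have hv := ZMod.val_lt t
  have hval : (t + ((2 * K : ℕ) : ZMod (4 * K))).val = (t.val + 2 * K) % (4 * K) := by
    rw [ZMod.val_add, ZMod.val_natCast_of_lt (by omega)]
  have hd : cdist (t + ((2 * K : ℕ) : ZMod (4 * K))) + cdist t = 2 * K := by
    unfold cdist
    rw [hval]
    by_cases h : t.val < 2 * K
    · rw [Nat.mod_eq_of_lt (by omega)]; omega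
    · rw [Nat.mod_eq_sub_mod (by omega), Nat.mod_eq_of_lt (by omega)]; omega
  have hd' : (cdist (t + ((2 * K : ℕ) : ZMod (4 * K))) : ℝ) + cdist t = 2 * K := by
    exact_mod_cast hd
  unfold wave
  have e : 2 * ((K : ℝ) - (cdist (t + ((2 * K : ℕ) : ZMod (4 * K))) : ℝ)) / K
      = -(2 * ((K : ℝ) - (cdist t : ℝ)) / K) := by
    rw [← neg_div]; congr 1; linarith
  rw [e]
  generalize 2 * ((K : ℝ) - (cdist t : ℝ)) / K = y
  simp only [max_def, min_def]
  split_ifs <;> linarith

theorem sum_wave : ∑ t : ZMod (4 * K), wave t = 0 := by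
  have h := Equiv.sum_comp (Equiv.addRight ((2 * K : ℕ) : ZMod (4 * K)))
    (fun t : ZMod (4 * K) => wave t)
  simp only [Equiv.coe_addRight, wave_half_period, Finset.sum_neg_distrib] at h
  linarith

theorem abs_wave_succ (t : ZMod (4 * K)) : |wave (t + 1) - wave t| ≤ 2 / K := by
  have hKpos := Nat.pos_of_ne_zero (NeZero.ne K)
  have hv := ZMod.val_lt t
  have hval : (t + 1).val = (t.val + 1) % (4 * K) := by
    have : (t + ((1 : ℕ) : ZMod (4 * K))).val = (t.val + 1) % (4 * K) := by
      rw [ZMod.val_add, ZMod.val_natCast_of_lt (by omega)]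
    simpa using this
  have hd : cdist (t + 1) ≤ cdist t + 1 ∧ cdist t ≤ cdist (t + 1) + 1 := by
    unfold cdist
    rw [hval]
    by_cases h : t.val + 1 < 4 * K
    · rw [Nat.mod_eq_of_lt h]; omega
    · rw [show t.val + 1 = 4 * K by omega, Nat.mod_self]; omega
  have hK : (0 : ℝ) < K := by exact_mod_cast hKpos
  have hd' : |(cdist t : ℝ) - (cdist (t + 1) : ℝ)| ≤ 1 := by
    have h1 : (cdist (t + 1) : ℝ) ≤ cdist t + 1 := by exact_mod_cast hd.1
    have h2 : (cdist t : ℝ) ≤ cdist (t + 1) + 1 := by exact_mod_cast hd.2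
    rw [abs_le]; constructor <;> linarith
  refine (abs_max_sub_max_le_max _ _ _ _).trans ?_
  simp only [sub_self, abs_zero]
  refine max_le (by positivity) ((abs_min_sub_min_le_max _ _ _ _).trans ?_)
  simp only [sub_self, abs_zero]
  refine max_le (by positivity) ?_
  rw [show 2 * ((K : ℝ) - (cdist (t + 1) : ℝ)) / K - 2 * ((K : ℝ) - (cdist t : ℝ)) / K
      = 2 * ((cdist t : ℝ) - (cdist (t + 1) : ℝ)) / K by ring,
    abs_div, abs_mul, abs_two, abs_of_pos hK]
  exact div_le_div_of_nonneg_right (by linarith) hK.le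

theorem abs_wave_add_nat (t : ZMod (4 * K)) (n : ℕ) :
    |wave (t + (n : ZMod (4 * K))) - wave t| ≤ 2 * n / K := by
  induction n with
  | zero => simp
  | succ n ih =>
    have h := abs_wave_succ (t + (n : ZMod (4 * K)))
    rw [Nat.cast_succ, ← add_assoc]
    calc _ ≤ |wave (t + (n : ZMod (4 * K)) + 1) - wave (t + (n : ZMod (4 * K)))|
          + |wave (t + (n : ZMod (4 * K))) - wave t| := abs_sub_le _ _ _
      _ ≤ 2 / K + 2 * n / K := add_le_add h ih
      _ = _ := by push_cast; ring

/-- Probability of the plateau. -/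
def plateau (K : ℕ) [NeZero K] : ℝ :=
  avg fun t : ZMod (4 * K) => if wave t = 1 then (1 : ℝ) else 0

theorem quarter_le_plateau : 1 / 4 ≤ plateau K := by
  classical
  have hKpos := Nat.pos_of_ne_zero (NeZero.ne K)
  have hK : (0 : ℝ) < K := by exact_mod_cast hKpos
  have hcard : K ≤ (univ.filter fun t : ZMod (4 * K) => wave t = 1).card := by
    have h := Finset.card_le_card_of_injOn (s := Finset.range K)
      (t := univ.filter fun t : ZMod (4 * K) => wave t = 1)
      (fun j => ((j + (4 * K - K / 2) : ℕ) : ZMod (4 * K))) ?_ ?_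
    · simpa using h
    · intro j hj
      simp only [Finset.coe_range, Set.mem_Iio] at hj
      simp only [Finset.coe_filter, Finset.mem_univ, true_and, Set.mem_setOf_eq]
      have hd : 2 * cdist ((j + (4 * K - K / 2) : ℕ) : ZMod (4 * K)) ≤ K := by
        unfold cdist
        rw [ZMod.val_natCast]
        by_cases h : j + (4 * K - K / 2) < 4 * K
        · rw [Nat.mod_eq_of_lt h]; omega
        · rw [Nat.mod_eq_sub_mod (by omega), Nat.mod_eq_of_lt (by omega)]; omega
      have hd' : 2 * (cdist ((j + (4 * K - K / 2) : ℕ) : ZMod (4 * K)) : ℝ) ≤ K := by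
        exact_mod_cast hd
      have h1 : (1 : ℝ) ≤ 2 * ((K : ℝ) - (cdist ((j + (4 * K - K / 2) : ℕ) : ZMod (4 * K)) : ℝ)) / K := by
        rw [le_div_iff₀ hK]; linarith
      rw [wave, min_eq_left h1]; norm_num
    · intro a ha b hb h
      simp only [Finset.coe_range, Set.mem_Iio] at ha hb
      have h2 := congrArg ZMod.val h
      simp only [ZMod.val_natCast] at h2
      have h3 : Nat.ModEq (4 * K) a b := Nat.ModEq.add_right_cancel' _ h2
      rwa [Nat.ModEq, Nat.mod_eq_of_lt (by omega), Nat.mod_eq_of_lt (by omega)] at h3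
  rw [plateau, avg, Finset.sum_boole, ZMod.card, div_le_div_iff₀ (by norm_num) (by positivity)]
  have : (K : ℝ) ≤ ((univ.filter fun t : ZMod (4 * K) => wave t = 1).card : ℝ) := by
    exact_mod_cast hcard
  push_cast
  linarith

theorem plateau_le_one : plateau K ≤ 1 :=
  (le_abs_self _).trans (abs_avg_le fun t => by split_ifs <;> norm_num)

end phase

section field

variable {w q K : ℕ} [NeZero q] [NeZero K]

/-- A seed: a phase, a read pattern, and a sign. -/
abbrev Seed (w q K : ℕ) : Type := (ZMod (4 * K) × (Pos w q → Bool × Bool)) × Bool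

/-- The field of a seed. -/
def field (ω : Seed w q K) (U : Finset (Bit w q)) : ℝ :=
  wave (ω.1.1 + (((U ∩ readSet ω.1.2).card : ℕ) : ZMod (4 * K)))

theorem abs_field_le (ω : Seed w q K) (U : Finset (Bit w q)) : |field ω U| ≤ 1 := abs_wave_le _

theorem field_symmDiff_eq (ω : Seed w q K) (U W : Finset (Bit w q))
    (hW : W ∩ readSet ω.1.2 = ∅) : field ω (U ∆ W) = field ω U := by
  have h : (U ∆ W) ∩ readSet ω.1.2 = U ∩ readSet ω.1.2 := by
    ext a
    have : ¬ (a ∈ W ∧ a ∈ readSet ω.1.2) := fun hh => by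
      have := Finset.mem_inter.mpr hh; rw [hW] at this; exact Finset.notMem_empty a this
    simp only [Finset.mem_inter, Finset.mem_symmDiff]; tauto
  simp only [field, h]

theorem abs_field_symmDiff (ω : Seed w q K) (U W : Finset (Bit w q)) :
    |field ω (U ∆ W) - field ω U| ≤ 2 * (W.card : ℝ) / K := by
  set R := readSet ω.1.2
  have hW : ((W ∩ R).card : ℝ) ≤ W.card := by
    exact_mod_cast Finset.card_le_card Finset.inter_subset_left
  have hb := abs_card_inter_symmDiff U W R
  have hmono : ∀ m : ℕ, (m : ℝ) ≤ W.card → 2 * (m : ℝ) / K ≤ 2 * (W.card : ℝ) / K := fun m hm =>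
    div_le_div_of_nonneg_right (by linarith) (Nat.cast_nonneg _)
  rcases le_total ((U ∩ R).card) (((U ∆ W) ∩ R).card) with h | h
  · obtain ⟨m, hm⟩ := Nat.exists_eq_add_of_le h
    have hm' : (m : ℝ) ≤ W.card := by
      rw [hm] at hb; push_cast at hb; rw [add_sub_cancel_left, Nat.abs_cast] at hb; linarith
    simp only [field]
    rw [hm, Nat.cast_add, ← add_assoc]
    exact (abs_wave_add_nat _ m).trans (hmono m hm')
  · obtain ⟨m, hm⟩ := Nat.exists_eq_add_of_le h
    have hm' : (m : ℝ) ≤ W.card := by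
      rw [hm] at hb; push_cast at hb; rw [sub_add_cancel_left, abs_neg, Nat.abs_cast] at hb; linarith
    simp only [field]
    rw [hm, Nat.cast_add, ← add_assoc, abs_sub_comm]
    exact (abs_wave_add_nat _ m).trans (hmono m hm')

theorem avg_fst {α β : Type} [Fintype α] [Fintype β] [Nonempty β] (F : α → ℝ) :
    avg (fun p : α × β => F p.1) = avg F := by
  rw [avg_prod]
  exact avg_const (Ω := β) (avg F)

theorem avg_avail (U : Finset (Bit w q)) :
    avg (fun ω : Seed w q K => if field ω U = 1 then (1 : ℝ) else 0) = plateau K := by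
  classical
  refine (avg_fst (fun a : ZMod (4 * K) × (Pos w q → Bool × Bool) =>
    if wave (a.1 + (((U ∩ readSet a.2).card : ℕ) : ZMod (4 * K))) = 1 then (1 : ℝ) else 0)).trans ?_
  rw [avg_prod]
  have h : ∀ g : Pos w q → Bool × Bool,
      (avg fun θ : ZMod (4 * K) =>
        if wave (θ + (((U ∩ readSet g).card : ℕ) : ZMod (4 * K))) = 1 then (1 : ℝ) else 0)
      = plateau K := fun g =>
    avg_equiv (Equiv.addRight (((U ∩ readSet g).card : ℕ) : ZMod (4 * K)))
      (fun t => if wave t = 1 then (1 : ℝ) else 0)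
  simp only [h, avg_const]

/-- Autocorrelation of the plateau with the wave. -/
def psi (z : ZMod (4 * K)) : ℝ := avg fun θ => if wave θ = 1 then wave (θ + z) else 0

theorem sum_psi : ∑ z : ZMod (4 * K), psi z = 0 := by
  simp only [psi, avg, ← Finset.sum_div]
  rw [Finset.sum_comm, div_eq_zero_iff]
  left
  refine Finset.sum_eq_zero fun θ _ => ?_
  split_ifs
  · exact (Equiv.sum_comp (Equiv.addLeft θ) (fun t : ZMod (4 * K) => wave t)).trans sum_wave
  · simp

theorem abs_psi_le (z : ZMod (4 * K)) : |psi z| ≤ 1 :=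
  abs_avg_le fun θ => by split_ifs <;> simp [abs_wave_le]

/-- The step at a position. -/
def step (U U' : Finset (Bit w q)) (p : Pos w q) (ω : Bool × Bool) : ZMod (4 * K) :=
  if ω.2 then (if (p, ω.1) ∈ U' then 1 else 0) - (if (p, ω.1) ∈ U then 1 else 0) else 0

omit [NeZero K] in
theorem card_inter_readSet (U : Finset (Bit w q)) (g : Pos w q → Bool × Bool) :
    ((U ∩ readSet g).card : ZMod (4 * K))
      = ∑ p : Pos w q, if (g p).2 then (if (p, (g p).1) ∈ U then 1 else 0) else 0 := by
  have h : U ∩ readSet g = (univ.filter fun p => (g p).2 ∧ (p, (g p).1) ∈ U).image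
      fun p => (p, (g p).1) := by
    ext b
    simp only [Finset.mem_inter, readSet, Finset.mem_filter, Finset.mem_univ, true_and,
      Finset.mem_image]
    constructor
    · rintro ⟨h1, h2⟩
      refine ⟨b.1, ⟨by simp [h2], ?_⟩, ?_⟩ <;> simp [h2, h1]
    · rintro ⟨p, ⟨h1, h2⟩, rfl⟩
      exact ⟨h2, Prod.ext rfl h1⟩
  rw [h, Finset.card_image_of_injective _ (fun p p' hp => congrArg Prod.fst hp),
    Finset.natCast_card_filter]
  refine Finset.sum_congr rfl fun p _ => ?_
  by_cases h1 : (g p).2 <;> simp [h1]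

theorem step_good (U U' : Finset (Bit w q)) (p : Pos w q)
    (hp : p ∈ (U ∆ U').image Prod.fst) (f : ZMod (4 * K) → ℝ) (h0 : ∑ z, f z = 0) :
    ∑ z, (avg fun ω => f (z + step (K := K) U U' p ω)) ^ 2
      ≤ (1 - 1 / (8 * ((4 * K : ℕ) : ℝ) ^ 2)) * ∑ z, f z ^ 2 := by
  obtain ⟨b, hb, hpb⟩ := Finset.mem_image.mp hp
  let h : Bool → ZMod (4 * K) → ℝ := fun s z => (f z + f (z + step (K := K) U U' p (s, true))) / 2
  have hsf : ∀ z, (avg fun ω => f (z + step (K := K) U U' p ω)) = (h b.2 z + h (!b.2) z) / 2 := by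
    intro z
    rcases b with ⟨_, b2⟩
    simp only [avg, Fintype.card_prod, Fintype.card_bool, Fintype.sum_prod_type, Fintype.sum_bool,
      h, step]
    cases b2 <;> simp <;> ring
  have hmain : ∑ z, h b.2 z ^ 2 ≤ (1 - 1 / (4 * ((4 * K : ℕ) : ℝ) ^ 2)) * ∑ z, f z ^ 2 := by
    refine half_shift_le f h0 ?_
    have hmem : (p, b.2) ∈ U ∆ U' := by rw [← hpb]; exact hb
    simp only [Finset.mem_symmDiff] at hmem
    rcases hmem with ⟨h1, h2⟩ | ⟨h1, h2⟩
    · right; simp [step, h1, h2]
    · left; simp [step, h1, h2]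
  have hother : ∑ z, h (!b.2) z ^ 2 ≤ ∑ z, f z ^ 2 := by
    have hx := Equiv.sum_comp (Equiv.addRight (step (K := K) U U' p (!b.2, true))) (fun z => f z ^ 2)
    simp only [Equiv.coe_addRight] at hx
    calc ∑ z, h (!b.2) z ^ 2
        ≤ ∑ z, (f z ^ 2 / 2 + f (z + step (K := K) U U' p (!b.2, true)) ^ 2 / 2) :=
          Finset.sum_le_sum fun z _ => by
            simp only [h]; nlinarith [sq_nonneg (f z - f (z + step (K := K) U U' p (!b.2, true)))]
      _ = _ := by rw [Finset.sum_add_distrib, ← Finset.sum_div, ← Finset.sum_div, hx]; ring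
  simp only [hsf]
  calc ∑ z, ((h b.2 z + h (!b.2) z) / 2) ^ 2
      ≤ ∑ z, (h b.2 z ^ 2 / 2 + h (!b.2) z ^ 2 / 2) :=
        Finset.sum_le_sum fun z _ => by nlinarith [sq_nonneg (h b.2 z - h (!b.2) z)]
    _ = (∑ z, h b.2 z ^ 2) / 2 + (∑ z, h (!b.2) z ^ 2) / 2 := by
        rw [Finset.sum_add_distrib, ← Finset.sum_div, ← Finset.sum_div]
    _ ≤ ((1 - 1 / (4 * ((4 * K : ℕ) : ℝ) ^ 2)) * ∑ z, f z ^ 2) / 2 + (∑ z, f z ^ 2) / 2 := by
        linarith
    _ = _ := by ring

/-- Distant states decorrelate. -/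
theorem avg_corr_sq_le (U U' : Finset (Bit w q)) {r : ℕ} (hr : 0 < r) (h : r ≤ (U ∆ U').card) :
    (avg fun ω : Seed w q K => (if field ω U = 1 then (1 : ℝ) else 0) * field ω U') ^ 2
      ≤ 16 * ((4 * K : ℕ) : ℝ) ^ 3 / r := by
  classical
  set Q : ℝ := ((4 * K : ℕ) : ℝ) with hQdef
  have hQ : 1 ≤ Q := by
    rw [hQdef]; exact_mod_cast Nat.one_le_iff_ne_zero.mpr (NeZero.ne (4 * K))
  have e : (avg fun ω : Seed w q K => (if field ω U = 1 then (1 : ℝ) else 0) * field ω U')
      = avg fun g : Pos w q → Bool × Bool =>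
          psi (0 + ∑ p, step (K := K) U U' p (g p)) := by
    refine (avg_fst (fun a : ZMod (4 * K) × (Pos w q → Bool × Bool) =>
      (if wave (a.1 + (((U ∩ readSet a.2).card : ℕ) : ZMod (4 * K))) = 1 then (1 : ℝ) else 0)
        * wave (a.1 + (((U' ∩ readSet a.2).card : ℕ) : ZMod (4 * K))))).trans ?_
    rw [avg_prod]
    congr 1
    funext g
    have hs : ((U' ∩ readSet g).card : ZMod (4 * K)) - ((U ∩ readSet g).card : ZMod (4 * K))
        = ∑ p, step (K := K) U U' p (g p) := by
      rw [card_inter_readSet, card_inter_readSet, ← Finset.sum_sub_distrib]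
      refine Finset.sum_congr rfl fun p _ => ?_
      by_cases h1 : (g p).2 <;> simp [step, h1]
    rw [zero_add, ← hs, psi]
    rw [← avg_equiv (Equiv.addRight ((U ∩ readSet g).card : ZMod (4 * K)))
      (fun θ => if wave θ = 1 then wave (θ + _) else 0)]
    congr 1
    funext θ
    simp only [Equiv.coe_addRight, ite_mul, one_mul, zero_mul]
    rw [add_assoc θ, add_sub_cancel]
    exact if_congr Iff.rfl rfl rfl
  rw [e]
  set good := (U ∆ U').image Prod.fst
  have hcard : r ≤ 2 * good.card := by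
    refine h.trans ?_
    calc (U ∆ U').card ≤ (good ×ˢ (univ : Finset Bool)).card := by
          refine Finset.card_le_card fun b hb => ?_
          exact Finset.mem_product.mpr ⟨Finset.mem_image_of_mem _ hb, Finset.mem_univ _⟩
      _ = 2 * good.card := by simp [mul_comm]
  set x : ℝ := 1 / (8 * Q ^ 2) with hx
  have hx0 : 0 < x := by positivity
  have hx1 : x ≤ 1 := by rw [hx, div_le_one (by positivity)]; nlinarith
  have hwalk := walk_sum_sq_le (step (K := K) U U') good (ρ := 1 - x) (by linarith)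
    (fun p hp f h0 => step_good U U' p hp f h0) univ psi sum_psi
  rw [Finset.univ_inter] at hwalk
  have hpsi : ∑ z : ZMod (4 * K), psi z ^ 2 ≤ Q := by
    calc ∑ z : ZMod (4 * K), psi z ^ 2 ≤ ∑ _z : ZMod (4 * K), (1 : ℝ) := by
          refine Finset.sum_le_sum fun z _ => ?_
          rw [← sq_abs]; exact pow_le_one₀ (abs_nonneg _) (abs_psi_le z)
      _ = Q := by simp [hQdef]
  have hn : (0 : ℝ) < good.card := by
    have : 0 < good.card := by omega
    exact_mod_cast this
  have hpow : (1 - x) ^ good.card ≤ 1 / (good.card * x) := by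
    have h1 : 1 + (good.card : ℝ) * x ≤ (1 + x) ^ good.card :=
      one_add_mul_le_pow (by linarith) _
    have h2 : (1 - x) ^ good.card * (1 + x) ^ good.card ≤ 1 := by
      rw [← mul_pow]; exact pow_le_one₀ (by nlinarith) (by nlinarith)
    rw [le_div_iff₀ (by positivity)]
    have h3 : 0 ≤ (1 - x) ^ good.card := pow_nonneg (by linarith) _
    nlinarith
  calc (avg fun g : Pos w q → Bool × Bool => psi (0 + ∑ p, step (K := K) U U' p (g p))) ^ 2
      ≤ ∑ z, (avg fun g : Pos w q → Bool × Bool => psi (z + ∑ p, step (K := K) U U' p (g p))) ^ 2 :=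
        Finset.single_le_sum (f := fun z : ZMod (4 * K) =>
          (avg fun g : Pos w q → Bool × Bool => psi (z + ∑ p, step (K := K) U U' p (g p))) ^ 2)
          (fun z _ => sq_nonneg _) (Finset.mem_univ 0)
    _ ≤ (1 - x) ^ good.card * ∑ z, psi z ^ 2 := hwalk
    _ ≤ (1 / (good.card * x)) * Q :=
        mul_le_mul hpow hpsi (Finset.sum_nonneg fun z _ => sq_nonneg _) (by positivity)
    _ = 8 * Q ^ 3 / good.card := by rw [hx]; field_simp
    _ ≤ 16 * Q ^ 3 / r := by
        have hr' : (0 : ℝ) < r := by exact_mod_cast hr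
        have hcard' : (r : ℝ) ≤ 2 * good.card := by exact_mod_cast hcard
        rw [div_le_div_iff₀ hn hr']
        have : 0 ≤ Q ^ 3 := by positivity
        nlinarith

/-- The sign of a seed. -/
def sgn (ω : Seed w q K) : ℝ := if ω.2 then 1 else -1

theorem avg_avail_mul_sgn (U : Finset (Bit w q)) :
    avg (fun ω : Seed w q K => (if field ω U = 1 then (1 : ℝ) else 0) * sgn ω) = 0 := by
  simp only [avg, div_eq_zero_iff]
  left
  rw [Fintype.sum_prod_type]
  refine Finset.sum_eq_zero fun a _ => ?_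
  simp [field, sgn]
  exact sub_eq_zero.mpr (if_congr Iff.rfl rfl rfl)

theorem avg_sign : avg (fun ω : Seed w q K => if ω.2 then (1 : ℝ) else 0) = 1 / 2 := by
  rw [avg_prod]
  refine (congrArg avg (funext fun b => ?_)).trans (?_ : avg (fun b : Bool => if b then (1 : ℝ) else 0) = 1 / 2)
  · exact avg_const (Ω := ZMod (4 * K) × (Pos w q → Bool × Bool)) (if b then (1 : ℝ) else 0)
  · simp [avg]

end field

end

end Vale.Agent.P090
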