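import Mathlib

/-!
Lipschitz-free spaces and the bounded approximation property.
-/

namespace Vale.Agent.P090

noncomputable section

variable {M : Type} [MetricSpace M]

/-- The real functions on `M` vanishing at `o` which are Lipschitz, as a linear subspace. -/
def lipSub (M : Type) [MetricSpace M] (o : M) : Submodule ℝ (M → ℝ) where
  carrier := {f | f o = 0 ∧ ∃ K : ℝ, ∀ x y, |f x - f y| ≤ K * dist x y}
  zero_mem' := ⟨rfl, 0, fun x y => by simp⟩
  add_mem' := by
    rintro f g ⟨hf, K, hK⟩ ⟨hg, L, hL⟩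
    refine ⟨by simp [hf, hg], K + L, fun x y => ?_⟩
    have e : (f + g) x - (f + g) y = (f x - f y) + (g x - g y) := by
      simp only [Pi.add_apply]; ring
    rw [e, add_mul]
    exact (abs_add_le _ _).trans (add_le_add (hK x y) (hL x y))
  smul_mem' := by
    rintro c f ⟨hf, K, hK⟩
    refine ⟨by simp [hf], |c| * K, fun x y => ?_⟩
    simp only [Pi.smul_apply, smul_eq_mul, ← mul_sub, abs_mul, mul_assoc]
    exact mul_le_mul_of_nonneg_left (hK x y) (abs_nonneg c)

/-- `Lip0 M o`: real Lipschitz functions on `M` vanishing at `o`. -/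
def Lip0 (M : Type) [MetricSpace M] (o : M) : Type := ↥(lipSub M o)

variable {o : M}

instance instAddCommGroupLip0 : AddCommGroup (Lip0 M o) :=
  inferInstanceAs (AddCommGroup ↥(lipSub M o))

instance instModuleLip0 : Module ℝ (Lip0 M o) :=
  inferInstanceAs (Module ℝ ↥(lipSub M o))

/-- The function underlying an element of `Lip0 M o`. -/
def Lip0.fn (f : Lip0 M o) : M → ℝ := Subtype.val f

/-- Build an element of `Lip0 M o`. -/
def Lip0.mk (f : M → ℝ) (h0 : f o = 0) (K : ℝ) (hK : ∀ x y, |f x - f y| ≤ K * dist x y) :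
    Lip0 M o := ⟨f, h0, K, hK⟩

@[simp] theorem Lip0.fn_mk (f : M → ℝ) (h0 : f o = 0) (K : ℝ)
    (hK : ∀ x y, |f x - f y| ≤ K * dist x y) : (Lip0.mk f h0 K hK).fn = f := rfl

@[simp] theorem Lip0.fn_add (f g : Lip0 M o) : (f + g).fn = f.fn + g.fn := rfl
@[simp] theorem Lip0.fn_sub (f g : Lip0 M o) : (f - g).fn = f.fn - g.fn := rfl
@[simp] theorem Lip0.fn_neg (f : Lip0 M o) : (-f).fn = -f.fn := rfl
@[simp] theorem Lip0.fn_zero : (0 : Lip0 M o).fn = 0 := rfl
@[simp] theorem Lip0.fn_smul (c : ℝ) (f : Lip0 M o) : (c • f).fn = c • f.fn := rfl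

theorem Lip0.fn_base (f : Lip0 M o) : f.fn o = 0 := (Subtype.property f).1

theorem Lip0.ext {f g : Lip0 M o} (h : f.fn = g.fn) : f = g := Subtype.ext h

theorem Lip0.exists_bound (f : Lip0 M o) :
    ∃ K : ℝ, ∀ x y, |f.fn x - f.fn y| ≤ K * dist x y := (Subtype.property f).2

/-- The Lipschitz constant of an element of `Lip0 M o`. -/
def Lip0.lipConst (f : Lip0 M o) : ℝ :=
  sInf {K : ℝ | 0 ≤ K ∧ ∀ x y, |f.fn x - f.fn y| ≤ K * dist x y}

theorem Lip0.lipSet_nonempty (f : Lip0 M o) :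
    {K : ℝ | 0 ≤ K ∧ ∀ x y, |f.fn x - f.fn y| ≤ K * dist x y}.Nonempty := by
  obtain ⟨K, hK⟩ := f.exists_bound
  exact ⟨max K 0, le_max_right _ _, fun x y => (hK x y).trans
    (mul_le_mul_of_nonneg_right (le_max_left _ _) dist_nonneg)⟩

theorem Lip0.lipConst_nonneg (f : Lip0 M o) : 0 ≤ f.lipConst :=
  le_csInf f.lipSet_nonempty fun _ h => h.1

theorem Lip0.lipConst_le (f : Lip0 M o) {K : ℝ} (h0 : 0 ≤ K)
    (hK : ∀ x y, |f.fn x - f.fn y| ≤ K * dist x y) : f.lipConst ≤ K :=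
  csInf_le ⟨0, fun _ h => h.1⟩ ⟨h0, hK⟩

theorem Lip0.lipConst_spec (f : Lip0 M o) (x y : M) :
    |f.fn x - f.fn y| ≤ f.lipConst * dist x y := by
  rcases (dist_nonneg : 0 ≤ dist x y).eq_or_lt with h | h
  · have hxy : x = y := dist_eq_zero.mp h.symm
    simp [hxy]
  · rw [← div_le_iff₀ h]
    exact le_csInf f.lipSet_nonempty fun K hK => (div_le_iff₀ h).mpr (hK.2 x y)

/-- The Lipschitz norm. -/
def lipNorm (M : Type) [MetricSpace M] (o : M) : AddGroupNorm (Lip0 M o) where
  toFun := Lip0.lipConst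
  map_zero' := le_antisymm (Lip0.lipConst_le _ le_rfl fun x y => by simp) (Lip0.lipConst_nonneg _)
  add_le' f g := Lip0.lipConst_le _ (add_nonneg f.lipConst_nonneg g.lipConst_nonneg) fun x y => by
    have e : (f + g).fn x - (f + g).fn y = (f.fn x - f.fn y) + (g.fn x - g.fn y) := by
      simp only [Lip0.fn_add, Pi.add_apply]; ring
    rw [e, add_mul]
    exact (abs_add_le _ _).trans (add_le_add (f.lipConst_spec x y) (g.lipConst_spec x y))
  neg' f := by
    have key : ∀ g : Lip0 M o, (-g).lipConst ≤ g.lipConst := fun g =>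
      Lip0.lipConst_le _ g.lipConst_nonneg fun x y => by
        have e : (-g).fn x - (-g).fn y = -(g.fn x - g.fn y) := by
          simp only [Lip0.fn_neg, Pi.neg_apply]; ring
        rw [e, abs_neg]; exact g.lipConst_spec x y
    refine le_antisymm (key f) ?_
    simpa using key (-f)
  eq_zero_of_map_eq_zero' f hf := by
    apply Lip0.ext
    funext x
    have h := f.lipConst_spec x o
    rw [hf, zero_mul, f.fn_base, sub_zero] at h
    simpa using h

instance instNormedAddCommGroupLip0 : NormedAddCommGroup (Lip0 M o) :=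
  (lipNorm M o).toNormedAddCommGroup

theorem Lip0.norm_def (f : Lip0 M o) : ‖f‖ = f.lipConst := rfl

instance instNormedSpaceLip0 : NormedSpace ℝ (Lip0 M o) where
  norm_smul_le c f := by
    rw [Lip0.norm_def, Lip0.norm_def, Real.norm_eq_abs]
    refine Lip0.lipConst_le _ (mul_nonneg (abs_nonneg c) f.lipConst_nonneg) fun x y => ?_
    simp only [Lip0.fn_smul, Pi.smul_apply, smul_eq_mul, ← mul_sub, abs_mul, mul_assoc]
    exact mul_le_mul_of_nonneg_left (f.lipConst_spec x y) (abs_nonneg c)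

theorem Lip0.abs_sub_le (f : Lip0 M o) (x y : M) :
    |f.fn x - f.fn y| ≤ ‖f‖ * dist x y := f.lipConst_spec x y

theorem Lip0.norm_le (f : Lip0 M o) {K : ℝ} (h0 : 0 ≤ K)
    (hK : ∀ x y, |f.fn x - f.fn y| ≤ K * dist x y) : ‖f‖ ≤ K := f.lipConst_le h0 hK

/-- Evaluation at `x`, as a continuous linear functional on `Lip0 M o`. -/
def evalAt (M : Type) [MetricSpace M] (o x : M) : Lip0 M o →L[ℝ] ℝ :=
  LinearMap.mkContinuous
    { toFun := fun f => f.fn x
      map_add' := fun f g => by simp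
      map_smul' := fun c f => by simp }
    (dist x o)
    (fun f => by
      have h := f.abs_sub_le x o
      rw [f.fn_base, sub_zero] at h
      show |f.fn x| ≤ dist x o * ‖f‖
      rw [mul_comm]; exact h)

@[simp] theorem evalAt_apply (x : M) (f : Lip0 M o) : evalAt M o x f = f.fn x := rfl

theorem norm_evalAt_sub_le (x y : M) : ‖evalAt M o x - evalAt M o y‖ ≤ dist x y := by
  refine ContinuousLinearMap.opNorm_le_bound _ dist_nonneg fun f => ?_
  simpa [Real.norm_eq_abs, mul_comm] using f.abs_sub_le x y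

theorem evalAt_base : evalAt M o o = 0 := by
  ext f; simp [f.fn_base]

/-- The Lipschitz-free space: the norm closed linear span of the evaluations
inside the dual of `Lip0 M o`. -/
def freeSub (M : Type) [MetricSpace M] (o : M) : Submodule ℝ (Lip0 M o →L[ℝ] ℝ) :=
  (Submodule.span ℝ (Set.range (evalAt M o))).topologicalClosure

instance instNormedAddCommGroupFree : NormedAddCommGroup (freeSub M o) :=
  Submodule.normedAddCommGroup _

instance instNormedSpaceFree : NormedSpace ℝ (freeSub M o) :=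
  Submodule.normedSpace _

/-- The evaluation `δ x` as an element of the free space. -/
def delta (o x : M) : freeSub M o :=
  ⟨evalAt M o x, Submodule.le_topologicalClosure _ (Submodule.subset_span ⟨x, rfl⟩)⟩

@[simp] theorem coe_delta (x : M) : (delta o x : Lip0 M o →L[ℝ] ℝ) = evalAt M o x := rfl

theorem norm_delta_sub_le (x y : M) : ‖delta o x - delta o y‖ ≤ dist x y :=
  norm_evalAt_sub_le (o := o) x y

theorem norm_delta_le (x : M) : ‖delta o x‖ ≤ dist x o := by
  have h := norm_evalAt_sub_le (o := o) x o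
  rw [evalAt_base, sub_zero] at h
  exact h

/-- The bounded approximation property: for some `lam`, the identity is approximated
uniformly on compact sets by continuous finite rank linear operators of norm `≤ lam`. -/
def HasBAP (X : Type) [NormedAddCommGroup X] [NormedSpace ℝ X] : Prop :=
  ∃ lam : ℝ, 1 ≤ lam ∧ ∀ C : Set X, IsCompact C → ∀ ε : ℝ, 0 < ε →
    ∃ T : X →L[ℝ] X, FiniteDimensional ℝ (LinearMap.range (T : X →ₗ[ℝ] X)) ∧ ‖T‖ ≤ lam ∧
      ∀ u ∈ C, ‖T u - u‖ < ε

/-- Elements of a finite dimensional subspace of the free space are almost supported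
on a common finite set of points. -/
theorem exists_finite_support (V : Submodule ℝ (freeSub M o)) [FiniteDimensional ℝ V]
    {τ : ℝ} (hτ : 0 < τ) :
    ∃ A : Finset M, ∀ v ∈ V, ∀ f : Lip0 M o, (∀ p ∈ A, f.fn p = 0) →
      |(v : Lip0 M o →L[ℝ] ℝ) f| ≤ τ * ‖v‖ * ‖f‖ := by
  classical
  have hfin : IsCompact (Metric.closedBall (0 : V) 1) := isCompact_closedBall _ _
  obtain ⟨t, -, htf, htc⟩ := finite_cover_balls_of_compact hfin (half_pos hτ)
  have happ : ∀ v : V, ∃ A : Finset M, ∀ f : Lip0 M o, (∀ p ∈ A, f.fn p = 0) →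
      |((v : freeSub M o) : Lip0 M o →L[ℝ] ℝ) f| ≤ τ / 2 * ‖f‖ := by
    intro v
    have hv : ((v : freeSub M o) : Lip0 M o →L[ℝ] ℝ) ∈
        closure (Submodule.span ℝ (Set.range (evalAt M o)) : Set (Lip0 M o →L[ℝ] ℝ)) :=
      (v : freeSub M o).2
    obtain ⟨u, hu, hdu⟩ := Metric.mem_closure_iff.mp hv (τ / 2) (half_pos hτ)
    obtain ⟨c, hc⟩ := Finsupp.mem_span_range_iff_exists_finsupp.mp hu
    refine ⟨c.support, fun f hf => ?_⟩
    have hu0 : u f = 0 := by
      rw [← hc, Finsupp.sum, sum_apply]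
      refine Finset.sum_eq_zero fun p hp => ?_
      simp [hf p hp]
    have e : ((v : freeSub M o) : Lip0 M o →L[ℝ] ℝ) f
        = (((v : freeSub M o) : Lip0 M o →L[ℝ] ℝ) - u) f := by simp [hu0]
    rw [e, ← Real.norm_eq_abs]
    refine (ContinuousLinearMap.le_opNorm _ f).trans (mul_le_mul_of_nonneg_right ?_ (norm_nonneg f))
    rw [← dist_eq_norm]
    exact hdu.le
  choose A hA using happ
  refine ⟨htf.toFinset.biUnion A, fun v hv f hf => ?_⟩
  rcases (norm_nonneg v).eq_or_lt with h | h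
  · have : v = 0 := norm_eq_zero.mp h.symm
    subst this; simp
  set w : V := ‖v‖⁻¹ • ⟨v, hv⟩ with hw
  have hw1 : w ∈ Metric.closedBall (0 : V) 1 := by
    rw [mem_closedBall_zero_iff, hw, norm_smul, norm_inv, norm_norm]
    exact le_of_eq (inv_mul_cancel₀ h.ne')
  obtain ⟨z, hz, hzw⟩ : ∃ z ∈ t, w ∈ Metric.ball z (τ / 2) := by simpa using htc hw1
  have h1 := hA z f fun p hp => hf p (Finset.mem_biUnion.mpr ⟨z, htf.mem_toFinset.mpr hz, hp⟩)
  have h2 : |(((w - z : V) : freeSub M o) : Lip0 M o →L[ℝ] ℝ) f| ≤ τ / 2 * ‖f‖ := by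
    rw [← Real.norm_eq_abs]
    refine (ContinuousLinearMap.le_opNorm _ f).trans (mul_le_mul_of_nonneg_right ?_ (norm_nonneg f))
    exact (mem_ball_iff_norm.mp hzw).le
  have h3 : |((w : freeSub M o) : Lip0 M o →L[ℝ] ℝ) f| ≤ τ * ‖f‖ := by
    have e : ((w : freeSub M o) : Lip0 M o →L[ℝ] ℝ) f
        = (((w - z : V) : freeSub M o) : Lip0 M o →L[ℝ] ℝ) f
          + ((z : freeSub M o) : Lip0 M o →L[ℝ] ℝ) f := by simp
    rw [e]
    calc _ ≤ _ + _ := abs_add_le _ _
      _ ≤ τ / 2 * ‖f‖ + τ / 2 * ‖f‖ := add_le_add h2 h1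
      _ = τ * ‖f‖ := by ring
  have h4 : (v : Lip0 M o →L[ℝ] ℝ) f = ‖v‖ * ((w : freeSub M o) : Lip0 M o →L[ℝ] ℝ) f := by
    rw [hw]
    show (v : Lip0 M o →L[ℝ] ℝ) f = ‖v‖ * (‖v‖⁻¹ * (v : Lip0 M o →L[ℝ] ℝ) f)
    rw [mul_inv_cancel_left₀ h.ne']
  rw [h4, abs_mul, abs_norm]
  calc ‖v‖ * |((w : freeSub M o) : Lip0 M o →L[ℝ] ℝ) f| ≤ ‖v‖ * (τ * ‖f‖) :=
        mul_le_mul_of_nonneg_left h3 h.le
    _ = τ * ‖v‖ * ‖f‖ := by ring

end

end Vale.Agent.P090
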