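import Mathlib

/-!
The path metric of a connected weighted graph whose weights are at least one.
-/

namespace Vale.Agent.P090

noncomputable section

/-- A connected weighted graph with weights at least one. -/
structure WGraph (P : Type) where
  Adj : P → P → ℝ → Prop
  one_le : ∀ {p q c}, Adj p q c → 1 ≤ c
  symm : ∀ {p q c}, Adj p q c → Adj q p c
  root : P
  joined : ∀ p, Relation.ReflTransGen (fun u v => ∃ c, Adj u v c) p root

variable {P : Type}

/-- Walks and their lengths. -/
inductive Walk (W : WGraph P) : P → P → ℝ → Prop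
  | nil (p : P) : Walk W p p 0
  | cons {p q r : P} {c L : ℝ} : W.Adj p q c → Walk W q r L → Walk W p r (c + L)

namespace Walk

variable {W : WGraph P}

theorem append {p q r : P} {a b : ℝ} (h1 : Walk W p q a) (h2 : Walk W q r b) :
    Walk W p r (a + b) := by
  induction h1 with
  | nil _ => simpa using h2
  | cons h _ ih => rw [add_assoc]; exact .cons h (ih h2)

theorem single {p q : P} {c : ℝ} (h : W.Adj p q c) : Walk W p q c := by
  simpa using Walk.cons h (.nil q)

theorem reverse {p q : P} {a : ℝ} (h : Walk W p q a) : Walk W q p a := by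
  induction h with
  | nil _ => exact .nil _
  | cons h _ ih => rw [add_comm]; exact ih.append (single (W.symm h))

theorem nonneg {p q : P} {a : ℝ} (h : Walk W p q a) : 0 ≤ a := by
  induction h with
  | nil _ => exact le_rfl
  | cons h _ ih => linarith [W.one_le h]

theorem one_le_of_ne {p q : P} {a : ℝ} (h : Walk W p q a) (hne : p ≠ q) : 1 ≤ a := by
  cases h with
  | nil _ => exact absurd rfl hne
  | cons h h' => linarith [W.one_le h, h'.nonneg]

theorem abs_sub_le {f : P → ℝ} {C : ℝ} (hf : ∀ p q c, W.Adj p q c → |f p - f q| ≤ C * c)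
    {p q : P} {a : ℝ} (h : Walk W p q a) : |f p - f q| ≤ C * a := by
  induction h with
  | nil _ => simp
  | cons h _ ih =>
    rw [mul_add]
    exact (_root_.abs_sub_le _ _ _).trans (add_le_add (hf _ _ _ h) ih)

end Walk

namespace WGraph

variable (W : WGraph P)

theorem exists_walk_root (p : P) : ∃ L, Walk W p W.root L := by
  induction W.joined p using Relation.ReflTransGen.head_induction_on with
  | refl => exact ⟨0, .nil _⟩
  | head h _ ih =>
    obtain ⟨c, hc⟩ := h
    obtain ⟨L, hL⟩ := ih
    exact ⟨c + L, .cons hc hL⟩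

theorem exists_walk (p q : P) : ∃ L, Walk W p q L := by
  obtain ⟨a, ha⟩ := W.exists_walk_root p
  obtain ⟨b, hb⟩ := W.exists_walk_root q
  exact ⟨a + b, ha.append hb.reverse⟩

/-- The path distance. -/
def pdist (p q : P) : ℝ := sInf {L | Walk W p q L}

theorem pdist_le {p q : P} {a : ℝ} (h : Walk W p q a) : W.pdist p q ≤ a :=
  csInf_le ⟨0, fun _ hb => hb.nonneg⟩ h

theorem le_pdist {p q : P} {b : ℝ} (h : ∀ a, Walk W p q a → b ≤ a) : b ≤ W.pdist p q :=
  le_csInf (W.exists_walk p q) h

theorem pdist_comm (p q : P) : W.pdist p q = W.pdist q p :=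
  le_antisymm (W.le_pdist fun _ h => W.pdist_le h.reverse)
    (W.le_pdist fun _ h => W.pdist_le h.reverse)

theorem one_le_pdist {p q : P} (h : p ≠ q) : 1 ≤ W.pdist p q :=
  W.le_pdist fun _ ha => ha.one_le_of_ne h

/-- The path metric. -/
@[instance_reducible]
def metricSpace : MetricSpace P where
  dist := W.pdist
  dist_self p := le_antisymm (W.pdist_le (.nil p)) (W.le_pdist fun _ h => h.nonneg)
  dist_comm := W.pdist_comm
  dist_triangle p q r := by
    have h1 : W.pdist p r - W.pdist q r ≤ W.pdist p q := W.le_pdist fun a ha => by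
      have h2 : W.pdist p r - a ≤ W.pdist q r :=
        W.le_pdist fun b hb => by linarith [W.pdist_le (ha.append hb)]
      linarith
    linarith
  eq_of_dist_eq_zero {p q} h := by
    by_contra hne
    have h1 := W.one_le_pdist hne
    have h2 : W.pdist p q = 0 := h
    linarith

theorem abs_sub_le_pdist {f : P → ℝ} {C : ℝ} (hC : 0 ≤ C)
    (hf : ∀ p q c, W.Adj p q c → |f p - f q| ≤ C * c) (p q : P) :
    |f p - f q| ≤ C * W.pdist p q := by
  rcases hC.eq_or_lt with h | h
  · obtain ⟨a, ha⟩ := W.exists_walk p q
    have h1 := ha.abs_sub_le hf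
    rw [← h, zero_mul] at h1 ⊢
    exact h1
  · rw [← div_le_iff₀' h]
    exact W.le_pdist fun a ha => (div_le_iff₀' h).mpr (ha.abs_sub_le hf)

end WGraph

end

end Vale.Agent.P090
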