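import Mathlib

/-!
A large deviation bound for finite product spaces and a decay estimate for
random walks on a finite cyclic group.
-/

namespace Vale.Agent.P090

noncomputable section

open Finset

/-- Average of a function on a finite type. -/
def avg {Ω : Type} [Fintype Ω] (F : Ω → ℝ) : ℝ := (∑ ω, F ω) / (Fintype.card Ω : ℝ)

section avg

variable {Ω : Type} [Fintype Ω]

theorem avg_add (F G : Ω → ℝ) : avg (fun ω => F ω + G ω) = avg F + avg G := by
  simp [avg, Finset.sum_add_distrib, add_div]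

theorem avg_sub (F G : Ω → ℝ) : avg (fun ω => F ω - G ω) = avg F - avg G := by
  simp [avg, Finset.sum_sub_distrib, sub_div]

theorem avg_mul_const (F : Ω → ℝ) (c : ℝ) : avg (fun ω => F ω * c) = avg F * c := by
  simp [avg, ← Finset.sum_mul]; ring

theorem avg_const [Nonempty Ω] (c : ℝ) : avg (fun _ : Ω => c) = c := by
  simp [avg, mul_div_cancel_left₀]

theorem abs_avg_le [Nonempty Ω] {F : Ω → ℝ} {B : ℝ} (h : ∀ ω, |F ω| ≤ B) : |avg F| ≤ B := by
  have hc : (0 : ℝ) < Fintype.card Ω := by exact_mod_cast Fintype.card_pos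
  rw [avg, abs_div, abs_of_pos hc, div_le_iff₀ hc]
  calc |∑ ω, F ω| ≤ ∑ ω, |F ω| := Finset.abs_sum_le_sum_abs _ _
    _ ≤ ∑ _ω : Ω, B := Finset.sum_le_sum fun ω _ => h ω
    _ = B * (Fintype.card Ω : ℝ) := by simp; ring

theorem avg_prod {α β : Type} [Fintype α] [Fintype β] (F : α × β → ℝ) :
    avg F = avg (fun b : β => avg fun a : α => F (a, b)) := by
  simp only [avg, Fintype.card_prod, Nat.cast_mul, ← Finset.sum_div, div_div]
  rw [Fintype.sum_prod_type, Finset.sum_comm]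

theorem avg_equiv {α β : Type} [Fintype α] [Fintype β] (e : α ≃ β) (F : β → ℝ) :
    avg (fun a => F (e a)) = avg F := by
  simp [avg, e.sum_comp F, Fintype.card_congr e]

end avg

theorem exp_sum_le {Ω : Type} [Fintype Ω] (f : Ω → ℝ) {B s : ℝ} (hf : ∀ ω, |f ω| ≤ B)
    (hs : 0 ≤ s) (hsB : s * B ≤ 1) (hmean : ∑ ω, f ω = 0) :
    ∑ ω, Real.exp (s * f ω) ≤ (Fintype.card Ω : ℝ) * Real.exp (s ^ 2 * B ^ 2) := by
  have h1 : ∀ ω, Real.exp (s * f ω) ≤ 1 + s * f ω + s ^ 2 * B ^ 2 := by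
    intro ω
    have ha : |s * f ω| ≤ 1 := by
      rw [abs_mul, abs_of_nonneg hs]
      exact (mul_le_mul_of_nonneg_left (hf ω) hs).trans hsB
    have hb := (abs_le.mp (Real.abs_exp_sub_one_sub_id_le ha)).2
    have hc : (s * f ω) ^ 2 ≤ s ^ 2 * B ^ 2 := by
      rw [mul_pow]
      refine mul_le_mul_of_nonneg_left ?_ (sq_nonneg s)
      rw [← sq_abs]; exact pow_le_pow_left₀ (abs_nonneg _) (hf ω) 2
    linarith
  calc ∑ ω, Real.exp (s * f ω) ≤ ∑ ω, (1 + s * f ω + s ^ 2 * B ^ 2) :=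
        Finset.sum_le_sum fun ω _ => h1 ω
    _ = (Fintype.card Ω : ℝ) * (1 + s ^ 2 * B ^ 2) := by
        simp [Finset.sum_add_distrib, ← Finset.mul_sum, hmean]; ring
    _ ≤ _ := mul_le_mul_of_nonneg_left (by linarith [Real.add_one_le_exp (s ^ 2 * B ^ 2)])
        (Nat.cast_nonneg _)

theorem card_upper_dev {ι Ω : Type} [Fintype ι] [DecidableEq ι] [Fintype Ω]
    (A : Finset ι) (f : ι → Ω → ℝ) {B T : ℝ} (hB : 0 < B) (hf : ∀ i ω, |f i ω| ≤ B)
    (hmean : ∀ i, ∑ ω, f i ω = 0) (hA : 0 < A.card) (hT : 0 ≤ T) (hT2 : T ≤ 2 * B * A.card) :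
    ((univ.filter fun g : ι → Ω => T < ∑ i ∈ A, f i (g i)).card : ℝ)
      ≤ Real.exp (-(T ^ 2 / (4 * B ^ 2 * A.card))) * (Fintype.card Ω : ℝ) ^ Fintype.card ι := by
  classical
  have hn : (0 : ℝ) < A.card := by exact_mod_cast hA
  set s := T / (2 * B ^ 2 * A.card) with hs
  have hs0 : 0 ≤ s := by positivity
  have hsB : s * B ≤ 1 := by
    rw [hs, div_mul_eq_mul_div, div_le_one (by positivity)]; nlinarith
  have h1 : ((univ.filter fun g : ι → Ω => T < ∑ i ∈ A, f i (g i)).card : ℝ) * Real.exp (s * T)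
      ≤ ∑ g : ι → Ω, Real.exp (s * ∑ i ∈ A, f i (g i)) := by
    calc ((univ.filter fun g : ι → Ω => T < ∑ i ∈ A, f i (g i)).card : ℝ) * Real.exp (s * T)
        = ∑ g ∈ univ.filter (fun g : ι → Ω => T < ∑ i ∈ A, f i (g i)), Real.exp (s * T) := by
          simp
      _ ≤ ∑ g ∈ univ.filter (fun g : ι → Ω => T < ∑ i ∈ A, f i (g i)),
            Real.exp (s * ∑ i ∈ A, f i (g i)) := by
          refine Finset.sum_le_sum fun g hg => Real.exp_le_exp.mpr ?_
          exact mul_le_mul_of_nonneg_left (Finset.mem_filter.mp hg).2.le hs0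
      _ ≤ _ := Finset.sum_le_sum_of_subset_of_nonneg (Finset.filter_subset _ _)
          fun g _ _ => (Real.exp_pos _).le
  have h2 : ∑ g : ι → Ω, Real.exp (s * ∑ i ∈ A, f i (g i))
      ≤ (Fintype.card Ω : ℝ) ^ Fintype.card ι * Real.exp (s ^ 2 * B ^ 2 * A.card) := by
    have e1 : ∀ g : ι → Ω, Real.exp (s * ∑ i ∈ A, f i (g i))
        = ∏ i, (if i ∈ A then Real.exp (s * f i (g i)) else 1) := by
      intro g
      rw [Finset.prod_ite_mem, Finset.univ_inter, Finset.mul_sum, Real.exp_sum]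
    simp only [e1]
    rw [← Fintype.prod_sum (fun i ω => if i ∈ A then Real.exp (s * f i ω) else (1 : ℝ))]
    calc (∏ i, ∑ ω, if i ∈ A then Real.exp (s * f i ω) else (1 : ℝ))
        ≤ ∏ i, ((Fintype.card Ω : ℝ) * (if i ∈ A then Real.exp (s ^ 2 * B ^ 2) else 1)) := by
          refine Finset.prod_le_prod (fun i _ => ?_) (fun i _ => ?_)
          · refine Finset.sum_nonneg fun ω _ => ?_
            split_ifs <;> positivity
          · split_ifs with h
            · exact exp_sum_le (f i) (hf i) hs0 hsB (hmean i)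
            · simp
      _ = _ := by
          rw [Finset.prod_mul_distrib, Finset.prod_ite_mem, Finset.univ_inter]
          simp [← Real.exp_nat_mul, mul_comm]
  have h3 : s ^ 2 * B ^ 2 * A.card - s * T = -(T ^ 2 / (4 * B ^ 2 * A.card)) := by
    rw [hs]; field_simp; ring
  rw [← h3, Real.exp_sub, div_mul_eq_mul_div, le_div_iff₀ (Real.exp_pos _)]
  exact (h1.trans h2).trans (le_of_eq (mul_comm _ _))

theorem card_dev {ι Ω : Type} [Fintype ι] [DecidableEq ι] [Fintype Ω] [Nonempty Ω]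
    (A : Finset ι) (f : ι → Ω → ℝ) {B t : ℝ} (hB : 0 < B) (hf : ∀ i ω, |f i ω| ≤ B)
    (hA : 0 < A.card) (ht : 0 ≤ t) (ht2 : t ≤ 4 * B) :
    ((univ.filter fun g : ι → Ω =>
        t * A.card < |∑ i ∈ A, f i (g i) - ∑ i ∈ A, avg (f i)|).card : ℝ)
      ≤ 2 * Real.exp (-(t ^ 2 * A.card / (16 * B ^ 2)))
          * (Fintype.card Ω : ℝ) ^ Fintype.card ι := by
  classical
  have hn : (0 : ℝ) < A.card := by exact_mod_cast hA
  have hc : (Fintype.card Ω : ℝ) ≠ 0 := by exact_mod_cast Fintype.card_ne_zero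
  have hf1 : ∀ i ω, |f i ω - avg (f i)| ≤ 2 * B := fun i ω =>
    (abs_sub _ _).trans (by linarith [hf i ω, abs_avg_le (hf i)])
  have hm1 : ∀ i, ∑ ω, (f i ω - avg (f i)) = 0 := by
    intro i; simp [avg, Finset.sum_sub_distrib, mul_div_cancel₀ _ hc]
  have hT : 0 ≤ t * (A.card : ℝ) := by positivity
  have hT2 : t * (A.card : ℝ) ≤ 2 * (2 * B) * A.card := by nlinarith
  have e : -((t * (A.card : ℝ)) ^ 2 / (4 * (2 * B) ^ 2 * A.card))
      = -(t ^ 2 * A.card / (16 * B ^ 2)) := by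
    field_simp; ring
  have hu := card_upper_dev A (fun i ω => f i ω - avg (f i)) (by positivity) hf1 hm1 hA hT hT2
  have hl := card_upper_dev A (fun i ω => -(f i ω - avg (f i))) (by positivity : (0:ℝ) < 2 * B)
    (fun i ω => by rw [abs_neg]; exact hf1 i ω)
    (fun i => by rw [Finset.sum_neg_distrib, hm1 i, neg_zero]) hA hT hT2
  rw [e] at hu hl
  refine le_trans ?_ (le_of_le_of_eq (add_le_add hu hl) (by ring))
  rw [← Nat.cast_add]
  refine Nat.cast_le.mpr (le_trans (Finset.card_le_card ?_) (Finset.card_union_le _ _))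
  intro g hg
  simp only [Finset.mem_filter, Finset.mem_univ, true_and, Finset.mem_union,
    Finset.sum_sub_distrib, Finset.sum_neg_distrib] at hg ⊢
  exact lt_abs.mp hg

/-- A simultaneous choice avoiding finitely many large deviations. -/
theorem exists_good {ι Ω J : Type} [Fintype ι] [DecidableEq ι] [Fintype Ω] [Nonempty Ω] [Fintype J]
    (A : J → Finset ι) (f : J → ι → Ω → ℝ) {B t : ℝ} {n : ℕ} (hB : 0 < B)
    (hf : ∀ j i ω, |f j i ω| ≤ B) (hn : 0 < n) (hA : ∀ j, n ≤ (A j).card)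
    (ht : 0 ≤ t) (ht2 : t ≤ 4 * B)
    (hJ : (Fintype.card J : ℝ) * (2 * Real.exp (-(t ^ 2 * n / (16 * B ^ 2)))) < 1) :
    ∃ g : ι → Ω, ∀ j,
      |∑ i ∈ A j, f j i (g i) - ∑ i ∈ A j, avg (f j i)| ≤ t * (A j).card := by
  classical
  let Bad : J → Finset (ι → Ω) := fun j => univ.filter fun g =>
    t * (A j).card < |∑ i ∈ A j, f j i (g i) - ∑ i ∈ A j, avg (f j i)|
  have htot : ((univ.biUnion Bad).card : ℝ) < (Fintype.card (ι → Ω) : ℝ) := by
    have hpos : (0 : ℝ) < (Fintype.card Ω : ℝ) ^ Fintype.card ι := by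
      have : (0 : ℝ) < Fintype.card Ω := by exact_mod_cast Fintype.card_pos
      positivity
    calc ((univ.biUnion Bad).card : ℝ) ≤ ∑ j, ((Bad j).card : ℝ) := by
          exact_mod_cast Finset.card_biUnion_le
      _ ≤ ∑ _j : J, 2 * Real.exp (-(t ^ 2 * n / (16 * B ^ 2)))
            * (Fintype.card Ω : ℝ) ^ Fintype.card ι := by
          refine Finset.sum_le_sum fun j _ => ?_
          refine (card_dev (A j) (f j) hB (hf j) (hn.trans_le (hA j)) ht ht2).trans ?_
          have : (n : ℝ) ≤ (A j).card := by exact_mod_cast hA j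
          gcongr
      _ = ((Fintype.card J : ℝ) * (2 * Real.exp (-(t ^ 2 * n / (16 * B ^ 2)))))
            * (Fintype.card Ω : ℝ) ^ Fintype.card ι := by simp; ring
      _ < 1 * (Fintype.card Ω : ℝ) ^ Fintype.card ι := mul_lt_mul_of_pos_right hJ hpos
      _ = (Fintype.card (ι → Ω) : ℝ) := by simp
  have hlt : (univ.biUnion Bad).card < (univ : Finset (ι → Ω)).card := by
    rw [Finset.card_univ]; exact_mod_cast htot
  obtain ⟨g, -, hg⟩ := Finset.exists_mem_notMem_of_card_lt_card hlt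
  refine ⟨g, fun j => ?_⟩
  by_contra h
  exact hg (Finset.mem_biUnion.mpr ⟨j, Finset.mem_univ j, by simp [Bad, lt_of_not_ge h]⟩)

section walk

variable {Q : ℕ} [NeZero Q]

theorem poincare (f : ZMod Q → ℝ) (h0 : ∑ z, f z = 0) :
    ∑ z, f z ^ 2 ≤ (Q : ℝ) ^ 2 * ∑ z, (f (z + 1) - f z) ^ 2 := by
  set S := ∑ z, |f (z + 1) - f z| with hS
  have hQ : (0 : ℝ) < Q := by exact_mod_cast Nat.pos_of_ne_zero (NeZero.ne Q)
  have step : ∀ (n : ℕ), n ≤ Q → ∀ z : ZMod Q, |f (z + n) - f z| ≤ S := by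
    intro n hn z
    have htel : f (z + n) - f z = ∑ i ∈ range n, (f (z + i + 1) - f (z + i)) := by
      have h := Finset.sum_range_sub (fun i : ℕ => f (z + i)) n
      simp only [Nat.cast_add, Nat.cast_one, Nat.cast_zero, add_zero, ← add_assoc] at h
      exact h.symm
    rw [htel]
    refine (Finset.abs_sum_le_sum_abs _ _).trans ?_
    have hinj : Set.InjOn (fun i : ℕ => z + (i : ZMod Q)) (range n) := by
      intro a ha b hb hab
      have h1 : ((a : ZMod Q)).val = ((b : ZMod Q)).val := by rw [add_left_cancel hab]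
      simp only [Finset.coe_range, Set.mem_Iio] at ha hb
      rwa [ZMod.val_natCast_of_lt (by omega), ZMod.val_natCast_of_lt (by omega)] at h1
    rw [← Finset.sum_image (f := fun y => |f (y + 1) - f y|) hinj]
    exact Finset.sum_le_univ_sum_of_nonneg fun y => abs_nonneg _
  have hb : ∀ z, |f z| ≤ S := by
    intro z
    have h1 : ∀ y : ZMod Q, |f z - f y| ≤ S := by
      intro y
      have h := step (z - y).val (ZMod.val_lt _).le y
      rwa [ZMod.natCast_zmod_val, add_sub_cancel] at h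
    have e : (Q : ℝ) * f z = ∑ y, (f z - f y) := by
      simp [Finset.sum_sub_distrib, h0]
    have h2 : (Q : ℝ) * |f z| ≤ (Q : ℝ) * S := by
      calc (Q : ℝ) * |f z| = |(Q : ℝ) * f z| := by rw [abs_mul, Nat.abs_cast]
        _ ≤ ∑ y, |f z - f y| := by rw [e]; exact Finset.abs_sum_le_sum_abs _ _
        _ ≤ ∑ _y : ZMod Q, S := Finset.sum_le_sum fun y _ => h1 y
        _ = (Q : ℝ) * S := by simp
    exact le_of_mul_le_mul_left h2 hQ
  have hS2 : S ^ 2 ≤ (Q : ℝ) * ∑ z, (f (z + 1) - f z) ^ 2 := by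
    have h := sq_sum_le_card_mul_sum_sq (s := (univ : Finset (ZMod Q)))
      (f := fun z => |f (z + 1) - f z|)
    simpa [sq_abs] using h
  calc ∑ z, f z ^ 2 ≤ ∑ _z : ZMod Q, S ^ 2 := by
        refine Finset.sum_le_sum fun z _ => ?_
        rw [← sq_abs]; exact pow_le_pow_left₀ (abs_nonneg _) (hb z) 2
    _ = (Q : ℝ) * S ^ 2 := by simp
    _ ≤ (Q : ℝ) * ((Q : ℝ) * ∑ z, (f (z + 1) - f z) ^ 2) := mul_le_mul_of_nonneg_left hS2 hQ.le
    _ = _ := by ring

theorem half_shift_le (f : ZMod Q → ℝ) (h0 : ∑ z, f z = 0) {s : ZMod Q} (hs : s = 1 ∨ s = -1) :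
    ∑ z, ((f z + f (z + s)) / 2) ^ 2 ≤ (1 - 1 / (4 * (Q : ℝ) ^ 2)) * ∑ z, f z ^ 2 := by
  have hQ : (0 : ℝ) < Q := by exact_mod_cast Nat.pos_of_ne_zero (NeZero.ne Q)
  have hshift : ∑ z, f (z + s) ^ 2 = ∑ z, f z ^ 2 :=
    Equiv.sum_comp (Equiv.addRight s) (fun z => f z ^ 2)
  have hdiff : ∑ z, (f (z + s) - f z) ^ 2 = ∑ z, (f (z + 1) - f z) ^ 2 := by
    rcases hs with rfl | rfl
    · rfl
    · rw [← Equiv.sum_comp (Equiv.addRight (1 : ZMod Q)) (fun z => (f (z + -1) - f z) ^ 2)]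
      refine Finset.sum_congr rfl fun z _ => ?_
      simp only [Equiv.coe_addRight, add_neg_cancel_right]
      ring
  have e : ∑ z, ((f z + f (z + s)) / 2) ^ 2
      = ∑ z, f z ^ 2 - (∑ z, (f (z + s) - f z) ^ 2) / 4 := by
    have : ∀ z, ((f z + f (z + s)) / 2) ^ 2
        = f z ^ 2 / 2 + f (z + s) ^ 2 / 2 - (f (z + s) - f z) ^ 2 / 4 := fun z => by ring
    simp only [this, Finset.sum_add_distrib, Finset.sum_sub_distrib, ← Finset.sum_div, hshift]
    ring
  have hp := poincare f h0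
  rw [e, hdiff, sub_mul, one_mul]
  have : 1 / (4 * (Q : ℝ) ^ 2) * ∑ z, f z ^ 2 ≤ (∑ z, (f (z + 1) - f z) ^ 2) / 4 := by
    rw [div_mul_eq_mul_div, one_mul, div_le_div_iff₀ (by positivity) (by norm_num)]
    nlinarith
  linarith

theorem avg_shift_sum {Ω : Type} [Fintype Ω] [Nonempty Ω] (f : ZMod Q → ℝ) (h0 : ∑ z, f z = 0)
    (st : Ω → ZMod Q) : ∑ z, avg (fun ω => f (z + st ω)) = 0 := by
  simp only [avg, ← Finset.sum_div]
  rw [Finset.sum_comm, div_eq_zero_iff]
  left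
  refine Finset.sum_eq_zero fun ω _ => ?_
  exact (Equiv.sum_comp (Equiv.addRight (st ω)) f).trans h0

theorem sq_avg_shift_le {Ω : Type} [Fintype Ω] [Nonempty Ω] (f : ZMod Q → ℝ) (st : Ω → ZMod Q) :
    ∑ z, (avg fun ω => f (z + st ω)) ^ 2 ≤ ∑ z, f z ^ 2 := by
  have hc : (0 : ℝ) < Fintype.card Ω := by exact_mod_cast Fintype.card_pos
  calc ∑ z, (avg fun ω => f (z + st ω)) ^ 2
      ≤ ∑ z, (∑ ω, f (z + st ω) ^ 2) / (Fintype.card Ω : ℝ) := by
        refine Finset.sum_le_sum fun z _ => ?_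
        rw [avg, div_pow, div_le_div_iff₀ (by positivity) hc]
        have h := sq_sum_le_card_mul_sum_sq (s := (univ : Finset Ω)) (f := fun ω => f (z + st ω))
        rw [Finset.card_univ] at h
        nlinarith
    _ = _ := by
        rw [← Finset.sum_div, Finset.sum_comm]
        have h : ∀ ω, ∑ z, f (z + st ω) ^ 2 = ∑ z, f z ^ 2 := fun ω =>
          Equiv.sum_comp (Equiv.addRight (st ω)) (fun z => f z ^ 2)
        simp [h, hc.ne']

theorem avg_split {ι Ω : Type} [Fintype ι] [DecidableEq ι] [Fintype Ω] [Nonempty Ω] (i : ι)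
    (G : Ω → (ι → Ω) → ℝ) (hG : ∀ ω g g', (∀ j ≠ i, g j = g' j) → G ω g = G ω g') :
    avg (fun g : ι → Ω => G (g i) g) = avg (fun g : ι → Ω => avg fun ω => G ω g) := by
  classical
  let e := (Equiv.piSplitAt i (fun _ : ι => Ω)).symm
  rw [← avg_equiv e, ← avg_equiv e (fun g => avg fun ω => G ω g), avg_prod, avg_prod]
  congr 1
  funext rest
  have hi : ∀ a, e (a, rest) i = a := fun a => by simp [e]
  have heq : ∀ a b ω, G ω (e (a, rest)) = G ω (e (b, rest)) := fun a b ω =>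
    hG ω _ _ fun j hj => by simp [e, Equiv.piSplitAt_symm_apply, hj]
  obtain ⟨a0⟩ := ‹Nonempty Ω›
  simp only [hi]
  rw [show (fun a => G a (e (a, rest))) = fun a => G a (e (a0, rest)) from
      funext fun a => heq a a0 a,
    show (fun a => avg fun ω => G ω (e (a, rest))) = fun _ => avg fun ω => G ω (e (a0, rest)) from
      funext fun a => congrArg avg (funext fun ω => heq a a0 ω),
    avg_const]

theorem walk_sum_sq_le {ι Ω : Type} [Fintype ι] [DecidableEq ι] [Fintype Ω] [Nonempty Ω]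
    (st : ι → Ω → ZMod Q) (good : Finset ι) {ρ : ℝ} (hρ : 0 ≤ ρ)
    (hgood : ∀ i ∈ good, ∀ f : ZMod Q → ℝ, ∑ z, f z = 0 →
      ∑ z, (avg fun ω => f (z + st i ω)) ^ 2 ≤ ρ * ∑ z, f z ^ 2)
    (S : Finset ι) (f : ZMod Q → ℝ) (h0 : ∑ z, f z = 0) :
    ∑ z, (avg fun g : ι → Ω => f (z + ∑ i ∈ S, st i (g i))) ^ 2
      ≤ ρ ^ (S ∩ good).card * ∑ z, f z ^ 2 := by
  induction S using Finset.induction generalizing f with
  | empty => simp [avg_const]
  | @insert i S hi ih =>
    have hpush : ∀ z, (avg fun g : ι → Ω => f (z + ∑ j ∈ insert i S, st j (g j)))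
        = avg fun g : ι → Ω => (fun y => avg fun ω => f (y + st i ω)) (z + ∑ j ∈ S, st j (g j)) := by
      intro z
      simp only [Finset.sum_insert hi]
      rw [show (fun g : ι → Ω => f (z + (st i (g i) + ∑ j ∈ S, st j (g j))))
          = fun g => (fun ω g => f (z + ∑ j ∈ S, st j (g j) + st i ω)) (g i) g from
          funext fun g => by simp only; congr 1; ring,
        avg_split i (fun ω g => f (z + ∑ j ∈ S, st j (g j) + st i ω))]
      intro ω g g' hgg
      have : ∑ j ∈ S, st j (g j) = ∑ j ∈ S, st j (g' j) :=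
        Finset.sum_congr rfl fun j hj => by rw [hgg j (fun h => hi (h ▸ hj))]
      simp only [this]
    simp only [hpush]
    refine (ih (fun y => avg fun ω => f (y + st i ω)) (avg_shift_sum f h0 (st i))).trans ?_
    by_cases hgi : i ∈ good
    · rw [Finset.insert_inter_of_mem hgi, Finset.card_insert_of_notMem (by simp [hi]), pow_succ,
        mul_assoc]
      exact mul_le_mul_of_nonneg_left (hgood i hgi f h0) (pow_nonneg hρ _)
    · rw [Finset.insert_inter_of_notMem hgi]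
      exact mul_le_mul_of_nonneg_left (sq_avg_shift_le f (st i)) (pow_nonneg hρ _)

end walk

end

end Vale.Agent.P090
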