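import Vale.Agent.P090.Stage

/-!
The tower of stages and the gadget extracted from it.
-/

namespace Vale.Agent.P090

noncomputable section

open Finset
open scoped symmDiff

/-! ### The first stage -/

section first

variable (w q : ℕ) [NeZero q]

/-- The anchors: sets of positions. -/
abbrev Anch : Type := Finset (Pos w q)

/-- The base function on anchors. -/
def base0 (e e' : Anch w q) : ℝ := 2 * ((e ∆ e').card : ℝ) / (w * q) - 1

variable {w q}

/-- The graph of a polynomial of degree at most two. -/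
def graph0 (β : Fin 3 → ZMod q) : Finset (Pos w q) := univ.image fun t => (t, polyVal β t)

theorem card_graph0 (β : Fin 3 → ZMod q) : (graph0 (w := w) β).card = w := by
  rw [graph0, Finset.card_image_of_injective _ (fun t s h => congrArg Prod.fst h)]
  simp

theorem card_graph0_inter [Fact q.Prime] (hwq : w ≤ q) {β β' : Fin 3 → ZMod q} (h : β ≠ β') :
    (graph0 (w := w) β ∩ graph0 β').card ≤ 3 := by
  refine le_trans ?_ (card_agree_le hwq h)
  refine le_trans (Finset.card_le_card (t :=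
    (univ.filter fun t : Fin w => polyVal β t = polyVal β' t).image fun t => (t, polyVal β t)) ?_)
    Finset.card_image_le
  intro b hb
  simp only [graph0, Finset.mem_inter, Finset.mem_image, Finset.mem_univ, true_and] at hb
  obtain ⟨⟨t, rfl⟩, s, hs⟩ := hb
  simp only [Prod.mk.injEq] at hs
  obtain ⟨rfl, hv⟩ := hs
  exact Finset.mem_image.mpr ⟨s, Finset.mem_filter.mpr ⟨Finset.mem_univ _, hv.symm⟩, rfl⟩

theorem card_polyVal_eq [Fact q.Prime] (t : Fin w) (v : ZMod q) :
    (univ.filter fun β : Fin 3 → ZMod q => polyVal β t = v).card = q ^ 2 := by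
  have hp : ∀ β : Fin 3 → ZMod q, polyVal β t
      = β 0 + β 1 * (((t : ℕ) : ZMod q)) + β 2 * (((t : ℕ) : ZMod q)) ^ 2 := fun β => by
    simp [polyVal, Fin.sum_univ_three]
  have hc : q ^ 2 = (univ : Finset (ZMod q × ZMod q)).card := by simp [sq]
  rw [hc]
  refine Finset.card_bij' (fun β _ => (β 1, β 2))
    (fun b _ => ![v - b.1 * (((t : ℕ) : ZMod q)) - b.2 * (((t : ℕ) : ZMod q)) ^ 2, b.1, b.2])
    (fun β _ => Finset.mem_univ _) ?_ ?_ ?_
  · intro b _
    simp [hp]
    try ring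
  · intro β hβ
    simp only [Finset.mem_filter, Finset.mem_univ, true_and, hp] at hβ
    subst hβ
    funext i
    fin_cases i <;> simp <;> ring
  · intro b _
    simp

theorem sum_graph0_inter [Fact q.Prime] (D : Finset (Pos w q)) :
    ∑ β : Fin 3 → ZMod q, (D ∩ graph0 β).card = D.card * q ^ 2 := by
  have e : ∀ β : Fin 3 → ZMod q, (D ∩ graph0 β).card
      = ∑ b ∈ D, if b ∈ graph0 β then 1 else 0 := by
    intro β; rw [← Finset.card_filter, ← Finset.filter_mem_eq_inter]
  simp only [e]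
  rw [Finset.sum_comm, ← smul_eq_mul, ← Finset.sum_const]
  refine Finset.sum_congr rfl fun b _ => ?_
  rw [← Finset.card_filter, ← card_polyVal_eq b.1 b.2]
  congr 1
  ext β
  obtain ⟨t, v⟩ := b
  simp [graph0, eq_comm]

theorem card_sdiff_le_total (D W : Finset (Pos w q)) : ((D \ W).card : ℝ) ≤ (w : ℝ) * q := by
  have h := Finset.card_le_univ (D \ W)
  have e : Fintype.card (Pos w q) = w * q := by simp
  rw [e] at h
  exact_mod_cast h

/-- The first stage. -/
def stage0 : Stage (Anch w q) where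
  O := Anch w q
  V := Anch w q
  I := Fin 3 → ZMod q
  fO := inferInstance
  fV := inferInstance
  fI := inferInstance
  oE e := e
  aO e := e
  adjO _ _ := False
  a e := e
  flip x β := x ∆ graph0 β
  avail _ := univ
  po x β p := zeta (graph0 β) (x ∆ p)
  pv x β p := zeta (graph0 β) (x ∆ p)
  G x β p := zeta (graph0 β) (x ∆ p)
  kap x β p := 1 - 2 * (((x ∆ p) \ graph0 β).card : ℝ) / (w * q)

theorem abs_base0_sub_le [Fact q.Prime] (hw : 0 < w) (e p W : Anch w q) (hW : W.card = w) :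
    |base0 w q e p - base0 w q e (p ∆ W)| ≤ 2 / q := by
  have hw' : (0 : ℝ) < w := by exact_mod_cast hw
  have hq' : (0 : ℝ) < q := by exact_mod_cast Nat.pos_of_ne_zero (NeZero.ne q)
  have h := abs_card_sdiff_symmDiff (e ∆ p) W ∅
  rw [Finset.sdiff_empty, Finset.sdiff_empty, hW, symmDiff_assoc, abs_sub_comm] at h
  rw [show base0 w q e p - base0 w q e (p ∆ W)
      = 2 * (((e ∆ p).card : ℝ) - ((e ∆ (p ∆ W)).card : ℝ)) / (w * q) by
    simp only [base0]; ring]
  rw [abs_div, abs_mul, abs_two, abs_of_pos (by positivity : (0 : ℝ) < w * q),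
    div_le_div_iff₀ (by positivity) hq']
  nlinarith [mul_le_mul_of_nonneg_right h hq'.le]

theorem abs_base0_le (hw : 0 < w) (e p : Anch w q) : |base0 w q e p| ≤ 1 := by
  have hw' : (0 : ℝ) < w := by exact_mod_cast hw
  have hq' : (0 : ℝ) < q := by exact_mod_cast Nat.pos_of_ne_zero (NeZero.ne q)
  have h := card_sdiff_le_total (e ∆ p) ∅
  rw [Finset.sdiff_empty] at h
  have h1 : 2 * ((e ∆ p).card : ℝ) / (w * q) ≤ 2 := by
    rw [div_le_iff₀ (by positivity)]; linarith
  have h2 : 0 ≤ 2 * ((e ∆ p).card : ℝ) / (w * q) := by positivity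
  rw [base0, abs_le]; constructor <;> linarith

theorem stage0_ok [Fact q.Prime] (hw : 0 < w) (hwq : w ≤ q) :
    (stage0 (w := w) (q := q)).Ok (base0 w q) (2 / q) (12 / w + 4 / q) (2 / q) (q ^ 3) := by
  have hw' : (0 : ℝ) < w := by exact_mod_cast hw
  have hq' : (0 : ℝ) < q := by exact_mod_cast Nat.pos_of_ne_zero (NeZero.ne q)
  have hanti : ∀ (x : Anch w q) β p,
      zeta (graph0 (w := w) β) ((x ∆ graph0 β) ∆ p) = -zeta (graph0 β) (x ∆ p) := fun x β p => by
    rw [symmDiff_right_comm, zeta_flip]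
  have hmean : ∀ x p : Anch w q,
      ∑ β : Fin 3 → ZMod q, (zeta (graph0 β) (x ∆ p) - base0 w q x p) = 0 := by
    intro x p
    have hs : (∑ β : Fin 3 → ZMod q, ((((x ∆ p) ∩ graph0 β).card : ℕ) : ℝ))
        = ((x ∆ p).card : ℝ) * (q : ℝ) ^ 2 := by exact_mod_cast sum_graph0_inter (x ∆ p)
    simp only [zeta, card_graph0, Finset.sum_sub_distrib, ← Finset.sum_div, ← Finset.mul_sum,
      Finset.sum_const, Finset.card_univ, nsmul_eq_mul, base0, hs]
    simp only [Fintype.card_pi, Finset.prod_const, Finset.card_univ, Fintype.card_fin, ZMod.card]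
    push_cast
    field_simp
    ring
  refine
    { eta_nonneg := by positivity
      eta_le_eps := le_rfl
      eta_le_slope := ?_
      flip_flip := fun x β => symmDiff_symmDiff_cancel_right (graph0 β) (x : Anch w q)
      avail_flip := fun x β _ => Finset.mem_univ _
      avail_card := fun x => le_of_eq (by simp [stage0])
      po_anti := hanti
      pv_anti := hanti
      G_anti := hanti
      kap_symm := ?_
      kap_le := ?_
      G_le := fun x β p => abs_zeta_le_one _ _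
      po_le := fun x β p => (abs_zeta_le_one _ _).trans one_le_two
      pv_le := ?_
      slope_o := fun o o' h => h.elim
      slope_same := ?_
      slope_other := ?_
      kap_slope := ?_
      base_slope := fun p β _ e => abs_base0_sub_le hw e p _ (card_graph0 β)
      base_slope_o := fun o o' h => h.elim
      kap_base := ?_
      mean_o := ?_
      mean_v := ?_
      jump := ?_
      aO_oE := fun e => rfl }
  · have : 0 ≤ 12 / (w : ℝ) := by positivity
    have e : 2 * (2 / (q : ℝ)) = 4 / q := by ring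
    linarith
  · intro (x : Anch w q) (β : Fin 3 → ZMod q) (p : Anch w q)
    show 1 - 2 * ((((x ∆ graph0 β) ∆ p) \ graph0 β).card : ℝ) / (w * q) = _
    rw [symmDiff_right_comm, symmDiff_sdiff_self']
    rfl
  · intro (x : Anch w q) (β : Fin 3 → ZMod q) (p : Anch w q)
    show |1 - 2 * (((x ∆ p) \ graph0 β).card : ℝ) / (w * q)| ≤ 1
    have h := card_sdiff_le_total (x ∆ p) (graph0 β)
    have h1 : 2 * (((x ∆ p) \ graph0 β).card : ℝ) / (w * q) ≤ 2 := by
      rw [div_le_iff₀ (by positivity)]; linarith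
    have h2 : 0 ≤ 2 * (((x ∆ p) \ graph0 β).card : ℝ) / (w * q) := by positivity
    rw [abs_le]; constructor <;> linarith
  · intro (x : Anch w q) (β : Fin 3 → ZMod q) (p : Anch w q) σ hσ
    show |zeta (graph0 β) (x ∆ p) - σ * zeta (graph0 β) (x ∆ p)| ≤ 2
    have h := abs_zeta_le_one (graph0 β) (x ∆ p)
    rw [← one_sub_mul, abs_mul]
    have h1 : |1 - σ| ≤ 2 := (abs_sub _ _).trans (by rw [abs_one]; linarith)
    nlinarith [abs_nonneg (zeta (graph0 β) (x ∆ p)), abs_nonneg (1 - σ)]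
  · intro (p : Anch w q) (β : Fin 3 → ZMod q) _ (x : Anch w q)
    have : 0 ≤ 12 / (w : ℝ) + 4 / q := by positivity
    simpa [stage0] using this
  · intro (p : Anch w q) (β' : Fin 3 → ZMod q) _ (x : Anch w q) (β : Fin 3 → ZMod q) hne σ hσ
    show |zeta (graph0 β) (x ∆ p) - σ * zeta (graph0 β) (x ∆ p)
      - (zeta (graph0 β) (x ∆ (p ∆ graph0 β')) - σ * zeta (graph0 β) (x ∆ (p ∆ graph0 β')))| ≤ _
    rw [← one_sub_mul, ← one_sub_mul, ← mul_sub, abs_mul, ← symmDiff_assoc, abs_sub_comm (zeta _ _)]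
    have h1 : |1 - σ| ≤ 2 := (abs_sub _ _).trans (by rw [abs_one]; linarith)
    have h2 := abs_zeta_sub_le (graph0 β) (x ∆ p) (graph0 β')
    rw [card_graph0] at h2
    have h3 : ((graph0 (w := w) β' ∩ graph0 β).card : ℝ) ≤ 3 := by
      exact_mod_cast card_graph0_inter hwq (Ne.symm hne)
    have h4 : |zeta (graph0 β) ((x ∆ p) ∆ graph0 β') - zeta (graph0 β) (x ∆ p)| ≤ 6 / w :=
      h2.trans (div_le_div_of_nonneg_right (by linarith) hw'.le)
    calc _ ≤ 2 * (6 / (w : ℝ)) := mul_le_mul h1 h4 (abs_nonneg _) (by norm_num)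
      _ ≤ 12 / w + 4 / q := by
        have : 0 ≤ 4 / (q : ℝ) := by positivity
        have e : 2 * (6 / (w : ℝ)) = 12 / w := by ring
        linarith
  · intro (p : Anch w q) (β' : Fin 3 → ZMod q) _ (x : Anch w q) (β : Fin 3 → ZMod q)
    show |1 - 2 * (((x ∆ p) \ graph0 β).card : ℝ) / (w * q)
      - (1 - 2 * (((x ∆ (p ∆ graph0 β')) \ graph0 β).card : ℝ) / (w * q))| ≤ 2 / q
    rw [← symmDiff_assoc]
    have h := abs_card_sdiff_symmDiff (x ∆ p) (graph0 β') (graph0 β)
    rw [card_graph0] at h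
    rw [show 1 - 2 * (((x ∆ p) \ graph0 β).card : ℝ) / (w * q)
        - (1 - 2 * ((((x ∆ p) ∆ graph0 β') \ graph0 β).card : ℝ) / (w * q))
        = 2 * (((((x ∆ p) ∆ graph0 β') \ graph0 β).card : ℝ)
            - (((x ∆ p) \ graph0 β).card : ℝ)) / (w * q) by ring,
      abs_div, abs_mul, abs_two, abs_of_pos (by positivity : (0 : ℝ) < w * q),
      div_le_div_iff₀ (by positivity) hq']
    nlinarith [mul_le_mul_of_nonneg_right h hq'.le]
  · intro (x : Anch w q) (β : Fin 3 → ZMod q) (p : Anch w q)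
    show |1 - 2 * (((x ∆ p) \ graph0 β).card : ℝ) / (w * q)
      + (2 * ((x ∆ p).card : ℝ) / (w * q) - 1)| ≤ 2 / q
    have h1 := Finset.card_le_card_sdiff_add_card (s := x ∆ p) (t := graph0 β)
    rw [card_graph0] at h1
    have h1' : ((x ∆ p).card : ℝ) ≤ ((x ∆ p) \ graph0 β).card + (w : ℝ) := by exact_mod_cast h1
    have h2 : (((x ∆ p) \ graph0 β).card : ℝ) ≤ (x ∆ p).card := by
      exact_mod_cast Finset.card_le_card Finset.sdiff_subset
    rw [show 1 - 2 * (((x ∆ p) \ graph0 β).card : ℝ) / (w * q)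
        + (2 * ((x ∆ p).card : ℝ) / (w * q) - 1)
        = 2 * (((x ∆ p).card : ℝ) - ((x ∆ p) \ graph0 β).card) / (w * q) by ring,
      abs_of_nonneg (div_nonneg (by linarith) (by positivity)),
      div_le_div_iff₀ (by positivity) hq']
    nlinarith
  · intro (x : Anch w q) (o : Anch w q)
    show |∑ β : Fin 3 → ZMod q, (zeta (graph0 β) (x ∆ o) - base0 w q x o)| ≤ _
    rw [hmean, abs_zero]; positivity
  · intro (x : Anch w q) (o : Anch w q)
    show |∑ β : Fin 3 → ZMod q, (zeta (graph0 β) (x ∆ o) - base0 w q x o)| ≤ _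
    rw [hmean, abs_zero]; positivity
  · intro (x : Anch w q) (β : Fin 3 → ZMod q)
    show zeta (graph0 β) (x ∆ x) = -1
    rw [symmDiff_self, zeta, card_graph0]
    simp [hw'.ne']

end first

/-! ### The schedule -/

/-- The scale of level `k`. -/
def zed (N k : ℕ) : ℕ := N * 2 ^ k

/-- A stage satisfying the numerical invariants of level `k`. -/
structure Lev {E : Type} (base : E → E → ℝ) (N k : ℕ) where
  st : Stage E
  ε : ℝ
  S : ℝ
  η : ℝ
  A : ℕ
  ok : st.Ok base ε S η A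
  neV : Nonempty st.V
  hA : zed N k ^ 55 ≤ A
  hI : Fintype.card st.I ≤ zed N k ^ (60 * (k + 1))
  hOV : Fintype.card st.O + Fintype.card st.V ≤ 2 ^ zed N k ^ 25
  hε : ε + 600 / (zed N k : ℝ) ≤ 700 / N
  hS : S + 40 / (zed N k : ℝ) ≤ 60 / N
  hη : η ≤ 2 / (N : ℝ)

/-- How a stage sits inside the next one. -/
structure Link {E : Type} (base : E → E → ℝ) (s s' : Stage E) (μ : ℝ) where
  sel : s.V → Finset s.I
  old : s.O → s'.O
  new : s.V → s'.O
  sel_ne : ∀ v, (sel v).Nonempty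
  sel_flip : ∀ v c, c ∈ sel v → c ∈ sel (s.flip v c)
  sel_mean : ∀ v o, |∑ c ∈ sel v, (s.po v c o - base (s.a v) (s.aO o))| ≤ μ * (sel v).card
  aO_old : ∀ o, s'.aO (old o) = s.aO o
  aO_new : ∀ v, s'.aO (new v) = s.a v
  oE_old : ∀ e, s'.oE e = old (s.oE e)
  adj_old : ∀ o o', s.adjO o o' → s'.adjO (old o) (old o')
  adj_new : ∀ v c, c ∈ sel v → s'.adjO (new v) (new (s.flip v c))

theorem pow_two_mul_le {z m : ℕ} (hz : 2 ≤ z) {a b : ℕ} (h : a ≤ b) (hm : m ≤ z ^ a) :
    m ≤ z ^ b := hm.trans (Nat.pow_le_pow_right (by omega) h)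

theorem exists_next {E : Type} {base : E → E → ℝ} (hbase : ∀ e e', |base e e'| ≤ 1) {N k : ℕ}
    (hN : 2 ^ 10 ≤ N) (L : Lev base N k) :
    Nonempty (Σ L' : Lev base N (k + 1), Link base L.st L'.st (800 / (N : ℝ))) := by
  classical
  set z := zed N k with hz
  have hNz : N ≤ z := Nat.le_mul_of_pos_right _ (Nat.two_pow_pos k)
  have hz10 : 2 ^ 10 ≤ z := hN.trans hNz
  have hk : k + 2 ≤ z := by
    have h1 : k + 1 ≤ 2 ^ k := Nat.lt_two_pow_self
    have h2 : 2 * 2 ^ k ≤ z := Nat.mul_le_mul_right _ (by omega)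
    omega
  have hz' : zed N (k + 1) = 2 * z := by simp only [hz, zed, pow_succ]; ring
  have hzR : (2 : ℝ) ^ 10 ≤ (z : ℝ) := by exact_mod_cast hz10
  have hz0 : (0 : ℝ) < z := lt_of_lt_of_le (by norm_num) hzR
  have hN0 : (0 : ℝ) < N := by
    have : (2 : ℝ) ^ 10 ≤ N := by exact_mod_cast hN
    linarith
  obtain ⟨q, hqp, hq1, hq2⟩ := Nat.exists_prime_lt_and_le_two_mul (z ^ 20) (by positivity)
  haveI : Fact q.Prime := ⟨hqp⟩
  haveI : NeZero q := ⟨hqp.ne_zero⟩
  haveI : NeZero (z ^ 5) := ⟨by positivity⟩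
  set D := 3 * (k + 1) with hD
  obtain ⟨h⟩ : Nonempty (L.st.I ↪ (Fin D → ZMod q)) := by
    refine Function.Embedding.nonempty_of_card_le ?_
    rw [Fintype.card_pi, Finset.prod_const, Finset.card_univ, Fintype.card_fin, ZMod.card]
    refine L.hI.trans ?_
    rw [show 60 * (k + 1) = 20 * D by omega, pow_mul]
    exact Nat.pow_le_pow_left hq1.le _
  have hA0 : 0 < L.A := lt_of_lt_of_le (by positivity) L.hA
  have hAR : (z : ℝ) ^ 55 ≤ (L.A : ℝ) := by exact_mod_cast L.hA
  set t : ℝ := 1 / z with ht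
  have ht0 : 0 ≤ t := by positivity
  have ht8 : t ≤ 1 / 8 := by
    rw [ht]; exact one_div_le_one_div_of_le (by norm_num) (by linarith)
  have hε1 : L.ε ≤ 1 := by
    have h1 : 700 / (N : ℝ) ≤ 1 := by
      rw [div_le_one hN0]
      have : (2 : ℝ) ^ 10 ≤ N := by exact_mod_cast hN
      linarith
    have h2 : 0 ≤ 600 / (z : ℝ) := by positivity
    linarith [L.hε]
  have hwq : 4 * (z ^ 3 * q) ≤ 8 * z ^ 25 := by
    calc 4 * (z ^ 3 * q) ≤ 4 * (z ^ 3 * (2 * z ^ 20)) := by gcongr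
      _ = 8 * z ^ 23 := by ring
      _ ≤ 8 * z ^ 25 := Nat.mul_le_mul_left _ (Nat.pow_le_pow_right (by omega) (by norm_num))
  have hB1 : 1 ≤ z ^ 25 := Nat.one_le_pow _ _ (by omega)
  have hnum : 8 * ((Fintype.card L.st.O : ℝ) + Fintype.card L.st.V + 1) ^ 2
      * ((2 : ℝ) ^ (2 * (z ^ 3 * q))) ^ 2 * Real.exp (-(t ^ 2 * L.A / 144)) < 1 := by
    have h1 : (Fintype.card L.st.O : ℝ) + Fintype.card L.st.V + 1 ≤ (2 : ℝ) ^ (z ^ 25 + 1) := by
      have h2 : ((Fintype.card L.st.O + Fintype.card L.st.V : ℕ) : ℝ) ≤ ((2 ^ z ^ 25 : ℕ) : ℝ) := by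
        exact_mod_cast L.hOV
      push_cast at h2
      have h3 : (1 : ℝ) ≤ (2 : ℝ) ^ z ^ 25 := one_le_pow₀ (by norm_num)
      rw [pow_succ]; linarith
    set m := 3 + 2 * (z ^ 25 + 1) + 2 * (2 * (z ^ 3 * q)) with hm
    have h4 : 8 * ((Fintype.card L.st.O : ℝ) + Fintype.card L.st.V + 1) ^ 2
        * ((2 : ℝ) ^ (2 * (z ^ 3 * q))) ^ 2 ≤ Real.exp m := by
      calc _ ≤ 8 * ((2 : ℝ) ^ (z ^ 25 + 1)) ^ 2 * ((2 : ℝ) ^ (2 * (z ^ 3 * q))) ^ 2 := by gcongr
        _ = (2 : ℝ) ^ m := by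
          rw [hm, ← pow_mul, ← pow_mul, show (8 : ℝ) = 2 ^ 3 by norm_num, ← pow_add, ← pow_add]
          congr 1; ring
        _ ≤ Real.exp 1 ^ m := pow_le_pow_left₀ (by norm_num)
            (by linarith [Real.add_one_le_exp (1 : ℝ)]) _
        _ = Real.exp m := by rw [← Real.exp_nat_mul, mul_one]
    refine lt_of_le_of_lt (mul_le_mul_of_nonneg_right h4 (Real.exp_pos _).le) ?_
    rw [← Real.exp_add, Real.exp_lt_one_iff]
    have h5 : (m : ℝ) ≤ 15 * (z : ℝ) ^ 25 := by
      have : m ≤ 15 * z ^ 25 := by omega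
      exact_mod_cast this
    have h6 : (z : ℝ) ^ 53 ≤ t ^ 2 * L.A := by
      rw [ht, one_div_pow, div_mul_eq_mul_div, one_mul, le_div_iff₀ (by positivity), ← pow_add]
      exact hAR
    have h7 : (15 * 144 : ℝ) * (z : ℝ) ^ 25 < (z : ℝ) ^ 53 := by
      rw [show 53 = 28 + 25 from rfl, pow_add]
      refine mul_lt_mul_of_pos_right ?_ (by positivity)
      have h8 : (z : ℝ) ^ 2 ≤ (z : ℝ) ^ 28 := pow_le_pow_right₀ (by linarith) (by norm_num)
      nlinarith
    linarith
  obtain ⟨ω, hg⟩ := Stage.exists_seeds (w := z ^ 3) (q := q) (K := z ^ 5) L.ok hbase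
    (r := z ^ 17) (δ := 32 / (z : ℝ)) (t := t) (by positivity) (by positivity)
    (by
      push_cast
      rw [div_pow, div_le_div_iff₀ (by positivity) (by positivity)]
      exact le_of_eq (by ring))
    hA0 ht0 (by linarith) hnum
  have hdeg : 3 + D ≤ z ^ 3 ∧ z ^ 3 ≤ q := by
    constructor
    · calc 3 + D = 3 * (k + 2) := by omega
        _ ≤ z * z ^ 1 := Nat.mul_le_mul (by omega) (by simpa using hk)
        _ ≤ z ^ 3 := by
          rw [← pow_succ']; exact Nat.pow_le_pow_right (by omega) (by norm_num)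
    · exact (Nat.pow_le_pow_right (by omega) (by norm_num)).trans hq1.le
  have hqR : (z : ℝ) ^ 20 ≤ (q : ℝ) := by exact_mod_cast hq1.le
  have hq0 : (0 : ℝ) < (q : ℝ) := by exact_mod_cast hqp.pos
  have hA' : (((2 * z) ^ 55 : ℕ) : ℝ) ≤ (L.A : ℝ) * (q : ℝ) ^ 3 / 8 := by
    have h1 : (z : ℝ) ^ 55 * ((z : ℝ) ^ 20) ^ 3 ≤ (L.A : ℝ) * (q : ℝ) ^ 3 := by gcongr
    have h2 : ((2 : ℝ) ^ 10) ^ 6 ≤ (z : ℝ) ^ 6 := pow_le_pow_left₀ (by norm_num) hzR 6
    have h3 : (z : ℝ) ^ 6 ≤ (z : ℝ) ^ 60 := pow_le_pow_right₀ (by linarith) (by norm_num)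
    have h4 : (0 : ℝ) ≤ (z : ℝ) ^ 55 := by positivity
    push_cast
    rw [mul_pow, le_div_iff₀ (by norm_num : (0 : ℝ) < 8)]
    refine le_trans ?_ h1
    rw [← pow_mul]
    calc (2 : ℝ) ^ 55 * (z : ℝ) ^ 55 * 8 = (z : ℝ) ^ 55 * ((2 : ℝ) ^ 55 * 8) := by ring
      _ ≤ (z : ℝ) ^ 55 * (z : ℝ) ^ (20 * 3) :=
        mul_le_mul_of_nonneg_left (by norm_num at h2 h3 ⊢; linarith) h4
  have hok' := Stage.child_ok (h := h) L.ok hg h.injective hdeg (by positivity) (by positivity)
    ht0 ht8 hε1 hA'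
  have hwR : ((z ^ 3 : ℕ) : ℝ) = (z : ℝ) ^ 3 := by push_cast; ring
  refine ⟨⟨
    { st := L.st.child (z ^ 17) ω h
      ε := _
      S := _
      η := L.η
      A := (2 * z) ^ 55
      ok := hok'
      neV := ?_
      hA := le_of_eq (by rw [hz'])
      hI := ?_
      hOV := ?_
      hε := ?_
      hS := ?_
      hη := L.hη },
    { sel := fun v => (L.st.avail v).filter fun c => (ω c).2 = true
      old := Sum.inl
      new := Sum.inr
      sel_ne := fun v => (Stage.sign_ok L.ok hg hA0 ht0 ht8 hε1 v).1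
      sel_flip := ?_
      sel_mean := ?_
      aO_old := fun o => rfl
      aO_new := fun v => rfl
      oE_old := fun e => rfl
      adj_old := fun o o' ho => Or.inl ⟨o, o', rfl, rfl, ho⟩
      adj_new := ?_ }⟩⟩
  · obtain ⟨v⟩ := L.neV
    exact ⟨(v, ∅)⟩
  · rw [Stage.card_child_I, hz']
    calc Fintype.card L.st.I * q ^ 3 ≤ z ^ (60 * (k + 1)) * (2 * z ^ 20) ^ 3 :=
          Nat.mul_le_mul L.hI (Nat.pow_le_pow_left hq2 _)
      _ = 2 ^ 3 * z ^ (60 * (k + 2)) := by
          rw [show 60 * (k + 2) = 60 * (k + 1) + 20 * 3 by omega, pow_add z, mul_pow, pow_mul]; ring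
      _ ≤ 2 ^ (60 * (k + 2)) * z ^ (60 * (k + 2)) :=
          Nat.mul_le_mul_right _ (Nat.pow_le_pow_right (by norm_num) (by omega))
      _ = _ := by rw [mul_pow]
  · rw [Stage.card_child_OV, hz']
    calc _ ≤ 2 ^ z ^ 25 + 2 ^ z ^ 25 * 2 ^ (2 * (z ^ 3 * q)) :=
          Nat.add_le_add L.hOV (Nat.mul_le_mul_right _ ((Nat.le_add_left _ _).trans L.hOV))
      _ ≤ 2 ^ z ^ 25 * 2 ^ (2 * (z ^ 3 * q)) * 2 := by
          have h1 : 2 ^ z ^ 25 * 1 ≤ 2 ^ z ^ 25 * 2 ^ (2 * (z ^ 3 * q)) :=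
            Nat.mul_le_mul_left _ Nat.one_le_two_pow
          linarith
      _ = 2 ^ (z ^ 25 + 2 * (z ^ 3 * q) + 1) := by rw [← pow_add, ← pow_succ]
      _ ≤ _ := by
          refine Nat.pow_le_pow_right (by norm_num) ?_
          rw [mul_pow]
          have : 10 * z ^ 25 ≤ 2 ^ 25 * z ^ 25 := Nat.mul_le_mul_right _ (by norm_num)
          omega
  · rw [hz']
    push_cast
    have h1 := L.hε
    have hzq : 4 * (z : ℝ) ^ 17 / ((z : ℝ) ^ 3 * q) ≤ 4 / z := by
      rw [div_le_div_iff₀ (by positivity) hz0]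
      have h2 : (z : ℝ) ^ 3 * (z : ℝ) ^ 20 ≤ (z : ℝ) ^ 3 * q :=
        mul_le_mul_of_nonneg_left hqR (by positivity)
      have h3 : (z : ℝ) ^ 18 ≤ (z : ℝ) ^ 23 := pow_le_pow_right₀ (by linarith) (by norm_num)
      rw [← pow_add] at h2
      have h4 : 4 * (z : ℝ) ^ 17 * z = 4 * (z : ℝ) ^ 18 := by ring
      norm_num at h2 ⊢
      linarith
    have hwr : 3 * (z : ℝ) ^ 3 / (z : ℝ) ^ 17 ≤ 3 / z := by
      rw [div_le_div_iff₀ (by positivity) hz0, mul_assoc, ← pow_succ]
      exact mul_le_mul_of_nonneg_left (pow_le_pow_right₀ (by linarith) (by norm_num)) (by norm_num)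
    have e1 : 8 * (32 / (z : ℝ) + 2 * t) = 272 / z := by rw [ht]; field_simp; ring
    have e2 : 600 / (2 * (z : ℝ)) = 300 / z := by field_simp; ring
    have e3 : (272 : ℝ) / z + 3 / z + 4 / z + 300 / z ≤ 600 / z := by
      rw [← add_div, ← add_div, ← add_div]
      exact div_le_div_of_nonneg_right (by norm_num) hz0.le
    rw [e2]
    linarith
  · rw [hz']
    push_cast
    have h1 := L.hS
    have hwK : 2 * (z : ℝ) ^ 3 / (z : ℝ) ^ 5 ≤ 2 / z := by
      rw [div_le_div_iff₀ (by positivity) hz0, mul_assoc, ← pow_succ]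
      exact mul_le_mul_of_nonneg_left (pow_le_pow_right₀ (by linarith) (by norm_num)) (by norm_num)
    have hwr : 4 * (z : ℝ) ^ 3 / (z : ℝ) ^ 17 ≤ 4 / z := by
      rw [div_le_div_iff₀ (by positivity) hz0, mul_assoc, ← pow_succ]
      exact mul_le_mul_of_nonneg_left (pow_le_pow_right₀ (by linarith) (by norm_num)) (by norm_num)
    have hDw : 4 * (3 + (D : ℝ)) / (z : ℝ) ^ 3 ≤ 12 / z := by
      rw [div_le_div_iff₀ (by positivity) hz0]
      have h2 : (k : ℝ) + 2 ≤ z := by exact_mod_cast hk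
      have h3 : (3 + (D : ℝ)) = 3 * ((k : ℝ) + 2) := by rw [hD]; push_cast; ring
      rw [h3]
      have h4 : (z : ℝ) * z ≤ (z : ℝ) ^ 3 := by nlinarith
      nlinarith
    have e2 : 40 / (2 * (z : ℝ)) = 20 / z := by field_simp; ring
    have e3 : (2 : ℝ) / z + 12 / z + 4 / z + 20 / z ≤ 40 / z := by
      rw [← add_div, ← add_div, ← add_div]
      exact div_le_div_of_nonneg_right (by norm_num) hz0.le
    rw [e2]
    linarith
  · intro v c hc
    simp only [Finset.mem_filter] at hc ⊢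
    exact ⟨L.ok.avail_flip _ _ hc.1, hc.2⟩
  · intro v o
    refine ((Stage.sign_ok L.ok hg hA0 ht0 ht8 hε1 v).2 o).trans
      (mul_le_mul_of_nonneg_right ?_ (Nat.cast_nonneg _))
    have h1 : 16 * t ≤ 16 / (z : ℝ) := le_of_eq (by rw [ht]; ring)
    have h2 : (16 : ℝ) / z ≤ 100 / N :=
      div_le_div₀ (by norm_num) (by norm_num) hN0 (by exact_mod_cast hNz)
    have h3 : 0 ≤ 600 / (z : ℝ) := by positivity
    have e : (800 : ℝ) / N = 700 / N + 100 / N := by ring
    linarith [L.hε]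
  · intro v c hc
    simp only [Finset.mem_filter] at hc
    exact Or.inr ⟨v, c, hc.1, hc.2, rfl, rfl⟩

theorem exists_first (N : ℕ) (hN : 2 ^ 10 ≤ N) :
    ∃ (w q : ℕ) (_ : NeZero q), (∀ e e', |base0 w q e e'| ≤ 1) ∧
      Nonempty (Lev (base0 w q) N 0) := by
  obtain ⟨q, hqp, hq1, hq2⟩ := Nat.exists_prime_lt_and_le_two_mul (N ^ 19) (by positivity)
  haveI : Fact q.Prime := ⟨hqp⟩
  haveI : NeZero q := ⟨hqp.ne_zero⟩
  have hN1 : 1 ≤ N := le_trans (by norm_num) hN
  have hNR : (1 : ℝ) ≤ N := by exact_mod_cast hN1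
  have hw : 0 < N ^ 3 := by positivity
  have hwq : N ^ 3 ≤ q := (Nat.pow_le_pow_right hN1 (by norm_num)).trans hq1.le
  have hqR : (N : ℝ) ≤ q := by
    have h1 : N ≤ q := (Nat.le_self_pow (by norm_num) N).trans hwq
    exact_mod_cast h1
  have hq20 : q ≤ N ^ 20 := by
    refine hq2.trans ?_
    rw [pow_succ' N 19]
    exact Nat.mul_le_mul_right _ (le_trans (by norm_num) hN)
  refine ⟨N ^ 3, q, inferInstance, fun e e' => abs_base0_le hw e e', ⟨
    { st := stage0
      ε := _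
      S := _
      η := _
      A := q ^ 3
      ok := stage0_ok hw hwq
      neV := ⟨(∅ : Anch (N ^ 3) q)⟩
      hA := ?_
      hI := ?_
      hOV := ?_
      hε := ?_
      hS := ?_
      hη := ?_ }⟩⟩ <;> (try simp only [zed, pow_zero, mul_one])
  · calc N ^ 55 ≤ (N ^ 19) ^ 3 := by rw [← pow_mul]; exact Nat.pow_le_pow_right hN1 (by norm_num)
      _ ≤ q ^ 3 := Nat.pow_le_pow_left hq1.le _
  · show Fintype.card (Fin 3 → ZMod q) ≤ _
    rw [Fintype.card_pi, Finset.prod_const, Finset.card_univ, Fintype.card_fin, ZMod.card,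
      show 60 * (0 + 1) = 20 * 3 by rfl, pow_mul]
    exact Nat.pow_le_pow_left hq20 _
  · show Fintype.card (Anch (N ^ 3) q) + Fintype.card (Anch (N ^ 3) q) ≤ _
    rw [Fintype.card_finset, Fintype.card_prod, Fintype.card_fin, ZMod.card, ← two_mul, ← pow_succ']
    refine Nat.pow_le_pow_right (by norm_num) ?_
    calc N ^ 3 * q + 1 ≤ N ^ 3 * N ^ 20 + N ^ 23 :=
          Nat.add_le_add (Nat.mul_le_mul_left _ hq20) (Nat.one_le_pow _ _ hN1)
      _ = 2 * N ^ 23 := by ring
      _ ≤ N ^ 2 * N ^ 23 := Nat.mul_le_mul_right _ (by nlinarith)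
      _ = N ^ 25 := by ring
  · have h1 : (2 : ℝ) / q ≤ 100 / N := div_le_div₀ (by norm_num) (by norm_num) (by linarith) hqR
    have e : (700 : ℝ) / N = 100 / N + 600 / N := by ring
    linarith
  · have h1 : (12 : ℝ) / ((N ^ 3 : ℕ) : ℝ) ≤ 12 / N := by
      refine div_le_div_of_nonneg_left (by norm_num) (by linarith) ?_
      exact_mod_cast Nat.le_self_pow (by norm_num) N
    have h2 : (4 : ℝ) / q ≤ 8 / N := div_le_div₀ (by norm_num) (by norm_num) (by linarith) hqR
    have e : (60 : ℝ) / N = 12 / N + 8 / N + 40 / N := by ring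
    linarith
  · exact div_le_div₀ (by norm_num) le_rfl (by linarith) hqR

/-- The finite data from which one component of the space is built. -/
structure Gadget (η : ℝ) where
  E : Type
  fE : Fintype E
  base : E → E → ℝ
  X : ℕ → Type
  fX : ∀ n, Fintype (X n)
  neX : ∀ n, Nonempty (X n)
  I : ℕ → Type
  a : ∀ n, X n → E
  flip : ∀ n, X n → I n → X n
  S : ∀ n, X n → Finset (I n)
  F : ∀ n, X n → I n → (E ⊕ Σ j, X j) → ℝ
  S_ne : ∀ n x, (S n x).Nonempty
  flip_flip : ∀ n x i, flip n (flip n x i) i = x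
  S_flip : ∀ n x i, i ∈ S n x → i ∈ S n (flip n x i)
  F_anti : ∀ n x i p, F n (flip n x i) i p = -F n x i p
  F_le : ∀ n x i p, |F n x i p| ≤ 2
  F_zero : ∀ n x i j v, n ≤ j → F n x i (Sum.inr ⟨j, v⟩) = 0
  F_jump : ∀ n x i, F n x i (Sum.inl (a n x)) = -1
  F_slope : ∀ n x i j v c, j < n → c ∈ S j v →
    |F n x i (Sum.inr ⟨j, v⟩) - F n x i (Sum.inr ⟨j, flip j v c⟩)| ≤ η
  mean_E : ∀ n x e, |∑ i ∈ S n x, (F n x i (Sum.inl e) - base (a n x) e)| ≤ η * (S n x).card
  mean_X : ∀ n x j v, j < n →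
    |∑ i ∈ S n x, (F n x i (Sum.inr ⟨j, v⟩) - base (a n x) (a j v))| ≤ η * (S n x).card
  base_slope : ∀ j v c, c ∈ S j v → ∀ e, |base e (a j v) - base e (a j (flip j v c))| ≤ η

section gadget

variable {E : Type} {base : E → E → ℝ} (st : ℕ → Stage E) {μ : ℝ}
  (lk : ∀ n, Link base (st n) (st (n + 1)) μ)

/-- The copy of the vertices of level `j` among the old points of level `n`. -/
def emb : ∀ n j, j < n → (st j).V → (st n).O
  | 0, _, h, _ => absurd h (Nat.not_lt_zero _)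
  | n + 1, j, h, v =>
    if hj : j < n then (lk n).old (emb n j hj v)
    else (le_antisymm (Nat.lt_succ_iff.mp h) (not_lt.mp hj)) ▸ (lk j).new v

theorem aO_emb : ∀ n j (h : j < n) v, (st n).aO (emb st lk n j h v) = (st j).a v
  | 0, _, h, _ => absurd h (Nat.not_lt_zero _)
  | n + 1, j, h, v => by
    by_cases hj : j < n
    · simp only [emb, dif_pos hj, (lk n).aO_old]
      exact aO_emb n j hj v
    · obtain rfl : j = n := le_antisymm (Nat.lt_succ_iff.mp h) (not_lt.mp hj)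
      simp only [emb, dif_neg hj]
      exact (lk j).aO_new v

theorem adj_emb : ∀ n j (h : j < n) v c, c ∈ (lk j).sel v →
    (st n).adjO (emb st lk n j h v) (emb st lk n j h ((st j).flip v c))
  | 0, _, h, _, _, _ => absurd h (Nat.not_lt_zero _)
  | n + 1, j, h, v, c, hc => by
    by_cases hj : j < n
    · simp only [emb, dif_pos hj]
      exact (lk n).adj_old _ _ (adj_emb n j hj v c hc)
    · obtain rfl : j = n := le_antisymm (Nat.lt_succ_iff.mp h) (not_lt.mp hj)
      simp only [emb, dif_neg hj]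
      exact (lk j).adj_new v c hc

end gadget

theorem exists_gadget {η : ℝ} (hη : 0 < η) : Nonempty (Gadget η) := by
  classical
  obtain ⟨N, hN1, hN2⟩ : ∃ N : ℕ, 2 ^ 10 ≤ N ∧ 1000 / η ≤ N := by
    obtain ⟨M, hM⟩ := exists_nat_ge (1000 / η)
    exact ⟨max M (2 ^ 10), le_max_right _ _, hM.trans (by exact_mod_cast le_max_left _ _)⟩
  have hN0 : (0 : ℝ) < N := lt_of_lt_of_le (by positivity) hN2
  have hNη : ∀ x : ℝ, x ≤ 1000 → x / N ≤ η := by
    intro x hx
    rw [div_le_iff₀ hN0]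
    rw [div_le_iff₀ hη] at hN2
    linarith
  obtain ⟨w, q, hq, hb, ⟨L0⟩⟩ := exists_first N hN1
  let nxt : ∀ k (L : Lev (base0 w q) N k),
      Σ L' : Lev (base0 w q) N (k + 1), Link (base0 w q) L.st L'.st (800 / (N : ℝ)) :=
    fun k L => (exists_next hb hN1 L).some
  let lev : ∀ k, Lev (base0 w q) N k :=
    fun k => Nat.rec (motive := fun k => Lev (base0 w q) N k) L0 (fun k L => (nxt k L).1) k
  let st : ℕ → Stage (Anch w q) := fun k => (lev k).st
  let lk : ∀ n, Link (base0 w q) (st n) (st (n + 1)) (800 / (N : ℝ)) := fun n => (nxt n (lev n)).2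
  have hS : ∀ n, (lev n).S ≤ η := by
    intro n
    have h1 := (lev n).hS
    have h2 : 0 ≤ 40 / (zed N n : ℝ) := by positivity
    linarith [hNη 60 (by norm_num)]
  have hμ : (800 : ℝ) / N ≤ η := hNη 800 (by norm_num)
  have hη0 : ∀ n, (lev n).η ≤ η := fun n => (lev n).hη.trans (hNη 2 (by norm_num))
  refine ⟨
    { E := Anch w q
      fE := inferInstance
      base := base0 w q
      X := fun n => (st n).V
      fX := fun n => (st n).fV
      neX := fun n => (lev n).neV
      I := fun n => (st n).I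
      a := fun n => (st n).a
      flip := fun n => (st n).flip
      S := fun n => (lk n).sel
      F := fun n x i => Sum.elim (fun e => (st n).po x i ((st n).oE e))
        (fun jv => if h : jv.1 < n then (st n).po x i (emb st lk n jv.1 h jv.2) else 0)
      S_ne := fun n => (lk n).sel_ne
      flip_flip := fun n => (lev n).ok.flip_flip
      S_flip := fun n => (lk n).sel_flip
      F_anti := ?_
      F_le := ?_
      F_zero := ?_
      F_jump := fun n x i => (lev n).ok.jump x i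
      F_slope := ?_
      mean_E := ?_
      mean_X := ?_
      base_slope := ?_ }⟩
  · rintro n x i (e | ⟨j, v⟩)
    · exact (lev n).ok.po_anti x i _
    · dsimp only [Sum.elim_inr]
      split_ifs with h
      · exact (lev n).ok.po_anti x i _
      · simp
  · rintro n x i (e | ⟨j, v⟩)
    · exact (lev n).ok.po_le x i _
    · dsimp only [Sum.elim_inr]
      split_ifs with h
      · exact (lev n).ok.po_le x i _
      · simp
  · intro n x i j v h
    dsimp only [Sum.elim_inr]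
    rw [dif_neg (not_lt.mpr h)]
  · intro n x i j v c h hc
    dsimp only [Sum.elim_inr]
    rw [dif_pos h, dif_pos h]
    exact ((lev n).ok.slope_o _ _ (adj_emb st lk n j h v c hc) x i).trans (hS n)
  · intro n x e
    refine le_trans ?_ (mul_le_mul_of_nonneg_right hμ (Nat.cast_nonneg _))
    have h1 := (lk n).sel_mean x ((st n).oE e)
    rw [show (st n).aO ((st n).oE e) = e from (lev n).ok.aO_oE e] at h1
    exact h1
  · intro n x j v h
    refine le_trans ?_ (mul_le_mul_of_nonneg_right hμ (Nat.cast_nonneg _))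
    have h1 := (lk n).sel_mean x (emb st lk n j h v)
    rw [aO_emb st lk n j h v] at h1
    simp only [Sum.elim_inr, dif_pos h]
    exact h1
  · intro j v c hc e
    have h1 := (lev (j + 1)).ok.base_slope_o _ _ ((lk j).adj_new v c hc) e
    refine le_trans (le_of_eq ?_) (h1.trans (hη0 (j + 1)))
    show |base0 w q e ((st j).a v) - base0 w q e ((st j).a ((st j).flip v c))|
      = |base0 w q e ((st (j + 1)).aO ((lk j).new v))
          - base0 w q e ((st (j + 1)).aO ((lk j).new ((st j).flip v c)))|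
    rw [(lk j).aO_new, (lk j).aO_new]

end

end Vale.Agent.P090
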