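import Vale.Agent.P090.Free
import Vale.Agent.P090.Metric
import Vale.Agent.P090.Tower

/-!
A countable metric space with distances at least one whose free space fails the BAP.

The space is a wedge of components, one for each `N`. The component `N` consists of a
finite set of anchors and of infinitely many finite levels of vertices attached to them.
-/

namespace Vale.Agent.P090

noncomputable section

open Finset

/-- The error parameter of component `N`. -/
def etaN (N : ℕ) : ℝ := 1 / (1024 * ((N : ℝ) + 1) ^ 3)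

theorem etaN_pos (N : ℕ) : 0 < etaN N := by unfold etaN; positivity

theorem etaN_le (N : ℕ) : etaN N ≤ 1 / 1024 := by
  unfold etaN
  refine one_div_le_one_div_of_le (by norm_num) ?_
  have : (1 : ℝ) ≤ ((N : ℝ) + 1) ^ 3 := one_le_pow₀ (by linarith [Nat.cast_nonneg (α := ℝ) N])
  linarith

/-- The length of an anchor edge in component `N`. -/
def ell (N : ℕ) : ℝ := 16 * ((N : ℝ) + 1)

theorem le_ell (N : ℕ) : 16 ≤ ell N := by
  unfold ell; linarith [Nat.cast_nonneg (α := ℝ) N]

/-- The radius of component `N`. -/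
def rad (N : ℕ) : ℝ := 2 / etaN N

theorem le_rad (N : ℕ) : ell N ≤ rad N := by
  have h : rad N = 2048 * ((N : ℝ) + 1) ^ 3 := by unfold rad etaN; field_simp; ring
  have h1 : (1 : ℝ) ≤ (N : ℝ) + 1 := by linarith [Nat.cast_nonneg (α := ℝ) N]
  have h2 : ((N : ℝ) + 1) ^ 1 ≤ ((N : ℝ) + 1) ^ 3 := pow_le_pow_right₀ h1 (by norm_num)
  rw [h, ell]; linarith

variable (G : ∀ N : ℕ, Gadget (etaN N))

/-- The nodes of component `N`. -/
abbrev Comp (N : ℕ) : Type := (G N).E ⊕ Σ n, (G N).X n

/-- The points of the space. -/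
abbrev Pt : Type := Option (Σ N, Comp G N)

/-- An anchor as a point. -/
def anch (N : ℕ) (e : (G N).E) : Pt G := some ⟨N, Sum.inl e⟩

/-- A vertex as a point. -/
def vert (N n : ℕ) (x : (G N).X n) : Pt G := some ⟨N, Sum.inr ⟨n, x⟩⟩

/-- The weighted edges, one orientation each. -/
inductive Arc : Pt G → Pt G → ℝ → Prop
  | hub (N : ℕ) (e : (G N).E) : Arc none (anch G N e) (rad N)
  | anchor (N n : ℕ) (x : (G N).X n) : Arc (vert G N n x) (anch G N ((G N).a n x)) (ell N)
  | sel (N n : ℕ) (x : (G N).X n) (c : (G N).I n) : c ∈ (G N).S n x →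
      Arc (vert G N n x) (vert G N n ((G N).flip n x c)) 1

/-- The weighted graph. -/
def graph : WGraph (Pt G) where
  Adj p q c := Arc G p q c ∨ Arc G q p c
  one_le := by
    intro p q c h
    have key : ∀ p q, Arc G p q c → 1 ≤ c := by
      intro p q h
      cases h with
      | hub N e => linarith [le_rad N, le_ell N]
      | anchor N n x => linarith [le_ell N]
      | sel N n x i hi => exact le_rfl
    exact h.elim (key _ _) (key _ _)
  symm := Or.symm
  root := none
  joined := by
    intro p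
    have hanch : ∀ N e, Relation.ReflTransGen
        (fun u v : Pt G => ∃ c, Arc G u v c ∨ Arc G v u c) (anch G N e) none :=
      fun N e => Relation.ReflTransGen.single ⟨_, Or.inr (Arc.hub N e)⟩
    rcases p with _ | ⟨N, e | ⟨n, x⟩⟩
    · exact Relation.ReflTransGen.refl
    · exact hanch N e
    · exact Relation.ReflTransGen.head ⟨_, Or.inl (Arc.anchor N n x)⟩ (hanch N _)

instance instMetricPt : MetricSpace (Pt G) := (graph G).metricSpace

theorem one_le_dist {p q : Pt G} (h : p ≠ q) : 1 ≤ dist p q := (graph G).one_le_pdist h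

theorem dist_le_of_arc {p q : Pt G} {c : ℝ} (h : Arc G p q c) : dist p q ≤ c :=
  (graph G).pdist_le (Walk.single (W := graph G) (Or.inl h))

theorem countable_pt : Countable (Pt G) := by
  haveI : ∀ N, Fintype (G N).E := fun N => (G N).fE
  haveI : ∀ N n, Fintype ((G N).X n) := fun N n => (G N).fX n
  infer_instance

theorem abs_sub_le_of_arc {f : Pt G → ℝ} {C : ℝ} (hC : 0 ≤ C)
    (hf : ∀ p q c, Arc G p q c → |f p - f q| ≤ C * c) (p q : Pt G) :
    |f p - f q| ≤ C * dist p q := by
  refine (graph G).abs_sub_le_pdist hC (fun p q c h => ?_) p q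
  rcases h with h | h
  · exact hf p q c h
  · rw [abs_sub_comm]; exact hf q p c h

section component

variable (N : ℕ)

/-- A function on component `N` extended by zero. -/
def ext (φ : Comp G N → ℝ) : Pt G → ℝ
  | none => 0
  | some ⟨N', p⟩ => if h : N' = N then φ (h ▸ p) else 0

theorem ext_self (φ : Comp G N → ℝ) (p : Comp G N) : ext G N φ (some ⟨N, p⟩) = φ p := by
  simp [ext]

theorem ext_lip (φ : Comp G N → ℝ) (C : ℝ) (hC : 0 ≤ C)
    (hhub : ∀ e, |φ (Sum.inl e)| ≤ C * rad N)
    (hanch : ∀ n x, |φ (Sum.inr ⟨n, x⟩) - φ (Sum.inl ((G N).a n x))| ≤ C * ell N)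
    (hsel : ∀ n x c, c ∈ (G N).S n x →
      |φ (Sum.inr ⟨n, x⟩) - φ (Sum.inr ⟨n, (G N).flip n x c⟩)| ≤ C) :
    ∀ p q : Pt G, |ext G N φ p - ext G N φ q| ≤ C * dist p q := by
  refine abs_sub_le_of_arc G hC ?_
  intro p q c h
  cases h with
  | hub N' e =>
    by_cases h : N' = N
    · subst h
      simpa [ext, anch] using hhub e
    · have : 0 ≤ C * rad N' := mul_nonneg hC (by linarith [le_rad N', le_ell N'])
      simpa [ext, anch, h] using this
  | anchor N' n x =>
    by_cases h : N' = N
    · subst h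
      simpa [ext, anch, vert] using hanch n x
    · have : 0 ≤ C * ell N' := mul_nonneg hC (by linarith [le_ell N'])
      simpa [ext, anch, vert, h] using this
  | sel N' n x i hi =>
    by_cases h : N' = N
    · subst h
      simpa [ext, vert] using hsel n x i hi
    · simpa [ext, vert, h] using hC

/-- A function on component `N` which is `C`-Lipschitz along edges, as an element of `Lip0`. -/
def lift (φ : Comp G N → ℝ) (C : ℝ) (hC : 0 ≤ C)
    (hhub : ∀ e, |φ (Sum.inl e)| ≤ C * rad N)
    (hanch : ∀ n x, |φ (Sum.inr ⟨n, x⟩) - φ (Sum.inl ((G N).a n x))| ≤ C * ell N)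
    (hsel : ∀ n x c, c ∈ (G N).S n x →
      |φ (Sum.inr ⟨n, x⟩) - φ (Sum.inr ⟨n, (G N).flip n x c⟩)| ≤ C) :
    Lip0 (Pt G) none :=
  Lip0.mk (ext G N φ) (show ext G N φ none = 0 from rfl) C (ext_lip G N φ C hC hhub hanch hsel)

theorem lift_fn (φ : Comp G N → ℝ) (C : ℝ) (hC : 0 ≤ C) (h1 h2 h3) :
    (lift G N φ C hC h1 h2 h3).fn = ext G N φ := rfl

theorem norm_lift_le (φ : Comp G N → ℝ) (C : ℝ) (hC : 0 ≤ C) (h1 h2 h3) :
    ‖lift G N φ C hC h1 h2 h3‖ ≤ C :=
  Lip0.norm_le _ hC (ext_lip G N φ C hC h1 h2 h3)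

/-- The mean of the test functions of a vertex. -/
def meanF (n : ℕ) (x : (G N).X n) (p : Comp G N) : ℝ :=
  (∑ i ∈ (G N).S n x, (G N).F n x i p) / ((G N).S n x).card

theorem card_S_pos (n : ℕ) (x : (G N).X n) : (0 : ℝ) < ((G N).S n x).card := by
  exact_mod_cast Finset.card_pos.mpr ((G N).S_ne n x)

theorem abs_meanF_le (n : ℕ) (x : (G N).X n) (p : Comp G N) : |meanF G N n x p| ≤ 2 := by
  rw [meanF, abs_div, Nat.abs_cast, div_le_iff₀ (card_S_pos G N n x)]
  exact (Finset.abs_sum_le_sum_abs _ _).trans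
    ((Finset.sum_le_card_nsmul _ _ _ fun i _ => (G N).F_le n x i p).trans
      (le_of_eq (by rw [nsmul_eq_mul]; ring)))

theorem abs_meanF_sub_le {n : ℕ} (x : (G N).X n) (p : Comp G N) {b η : ℝ}
    (h : |∑ i ∈ (G N).S n x, ((G N).F n x i p - b)| ≤ η * ((G N).S n x).card) :
    |meanF G N n x p - b| ≤ η := by
  have hc := card_S_pos G N n x
  rw [Finset.sum_sub_distrib, Finset.sum_const, nsmul_eq_mul] at h
  rw [meanF, div_sub' hc.ne', abs_div, Nat.abs_cast, div_le_iff₀ hc]
  exact h

/-- The mean on the points below level `n`, continued by the base function. -/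
def divFn (n : ℕ) (x : (G N).X n) : Comp G N → ℝ
  | Sum.inl e => meanF G N n x (Sum.inl e)
  | Sum.inr ⟨j, v⟩ =>
    if j < n then meanF G N n x (Sum.inr ⟨j, v⟩) else (G N).base ((G N).a n x) ((G N).a j v)

/-- The test function of a directed edge. -/
def testLip (n : ℕ) (x : (G N).X n) (i : (G N).I n) : Lip0 (Pt G) none :=
  lift G N ((G N).F n x i) (4 / ell N) (div_nonneg (by norm_num) (by linarith [le_ell N]))
    (fun e => by
      have h := le_rad N
      have h0 := le_ell N
      refine ((G N).F_le n x i _).trans ?_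
      rw [div_mul_eq_mul_div, le_div_iff₀ (by linarith)]
      linarith)
    (fun j v => by
      rw [div_mul_cancel₀ _ (by linarith [le_ell N])]
      refine (abs_sub _ _).trans ?_
      linarith [(G N).F_le n x i (Sum.inr ⟨j, v⟩), (G N).F_le n x i (Sum.inl ((G N).a j v))])
    (fun j v c hc => by
      have h0 : 0 ≤ 4 / ell N := div_nonneg (by norm_num) (by linarith [le_ell N])
      rcases lt_or_ge j n with h | h
      · refine ((G N).F_slope n x i j v c h hc).trans ?_
        rw [le_div_iff₀ (by linarith [le_ell N])]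
        have h1 : etaN N * ell N = 1 / (64 * ((N : ℝ) + 1) ^ 2) := by
          unfold etaN ell; field_simp; ring
        rw [h1]
        refine le_trans (one_div_le_one_div_of_le (by norm_num : (0 : ℝ) < 1) ?_) (by norm_num)
        have : (1 : ℝ) ≤ ((N : ℝ) + 1) ^ 2 := one_le_pow₀ (by linarith [Nat.cast_nonneg (α := ℝ) N])
        linarith
      · rw [(G N).F_zero n x i j v h, (G N).F_zero n x i j _ h]
        simpa using h0)

/-- The averaged test function. -/
def divLip (n : ℕ) (x : (G N).X n) : Lip0 (Pt G) none :=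
  lift G N (divFn G N n x) (etaN N) (etaN_pos N).le
    (fun e => by
      refine (abs_meanF_le G N n x _).trans ?_
      rw [rad, mul_div_cancel₀ _ (etaN_pos N).ne'])
    (fun j v => by
      have h1 := abs_meanF_sub_le G N x _ ((G N).mean_E n x ((G N).a j v))
      have h2 : 2 * etaN N ≤ etaN N * ell N := by nlinarith [etaN_pos N, le_ell N]
      simp only [divFn]
      rw [abs_le] at h1 ⊢
      split_ifs with h
      · have h3 := abs_le.mp (abs_meanF_sub_le G N x _ ((G N).mean_X n x j v h))
        constructor <;> linarith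
      · have := etaN_pos N
        constructor <;> linarith)
    (fun j v c hc => by
      simp only [divFn]
      split_ifs with h
      · rw [meanF, meanF, div_sub_div_same, ← Finset.sum_sub_distrib, abs_div, Nat.abs_cast,
          div_le_iff₀ (card_S_pos G N n x)]
        exact (Finset.abs_sum_le_sum_abs _ _).trans
          ((Finset.sum_le_card_nsmul _ _ _ fun i _ => (G N).F_slope n x i j v c h hc).trans
            (le_of_eq (by rw [nsmul_eq_mul]; ring)))
      · exact (G N).base_slope j v c hc _)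

theorem testLip_fn (n : ℕ) (x : (G N).X n) (i : (G N).I n) :
    (testLip G N n x i).fn = ext G N ((G N).F n x i) := rfl

theorem divLip_fn (n : ℕ) (x : (G N).X n) :
    (divLip G N n x).fn = ext G N (divFn G N n x) := rfl

theorem testLip_flip (n : ℕ) (x : (G N).X n) (i : (G N).I n) :
    testLip G N n ((G N).flip n x i) i = -testLip G N n x i := by
  apply Lip0.ext
  funext p
  rcases p with _ | ⟨N', p⟩
  · simp [testLip_fn, ext]
  · by_cases h : N' = N
    · subst h
      simp [testLip_fn, ext, (G N').F_anti n x i p]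
    · simp [testLip_fn, ext, h]

theorem divLip_anchor (n : ℕ) (x : (G N).X n) :
    (divLip G N n x).fn (anch G N ((G N).a n x)) = -1 := by
  have hc := card_S_pos G N n x
  simp only [divLip_fn, anch, ext_self, divFn, meanF, (G N).F_jump,
    Finset.sum_const, nsmul_eq_mul]
  field_simp

end component

theorem fn_sum {M : Type} [MetricSpace M] {o : M} {ι : Type} (s : Finset ι) (f : ι → Lip0 M o)
    (p : M) : (∑ i ∈ s, f i).fn p = ∑ i ∈ s, (f i).fn p :=
  map_sum (evalAt M o p) f s

/-- The level of a point. -/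
def lvl : Pt G → ℕ
  | some ⟨_, Sum.inr ⟨j, _⟩⟩ => j
  | _ => 0

/-- Each vertex almost reproduces the jump at its anchor. -/
theorem vert_bound {lam : ℝ} (hlam : 1 ≤ lam) (N : ℕ) (hN : lam ≤ N) {τ : ℝ}
    (hτ : τ = 1 / (64 * (lam + 1) * (rad N + ell N))) (n : ℕ)
    (g : Pt G → (Lip0 (Pt G) none →L[ℝ] ℝ))
    (hgLip : ∀ p q f, |g p f - g q f| ≤ lam * dist p q * ‖f‖)
    (hgA : ∀ e f, |g (anch G N e) f - f.fn (anch G N e)| ≤ τ * ‖f‖)
    (A : Finset (Pt G)) (hn : ∀ p ∈ A, lvl G p < n)
    (hA : ∀ p (f : Lip0 (Pt G) none), (∀ a ∈ A, f.fn a = 0) →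
      |g p f| ≤ τ * (lam * dist p none) * ‖f‖)
    (x : (G N).X n) :
    |∑ i ∈ (G N).S n x, g (vert G N n x) (testLip G N n x i) + ((G N).S n x).card|
      ≤ 1 / 16 * ((G N).S n x).card := by
  have hlam0 : 0 ≤ lam := by linarith
  set R := rad N + ell N with hR
  have hR0 : 32 ≤ R := by linarith [le_rad N, le_ell N]
  have hτ0 : 0 < τ := by rw [hτ]; positivity
  set f := testLip G N n with hf
  have hfn : ∀ x i, ‖f x i‖ ≤ 4 / ell N := fun x i => norm_lift_le G N _ _ _ _ _ _
  have hdn : ∀ x, ‖divLip G N n x‖ ≤ etaN N := fun x => norm_lift_le G N _ _ _ _ _ _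
  set c : ℝ := (((G N).S n x).card : ℝ) with hc
  have hc0 : 0 < c := card_S_pos G N n x
  set Dd := ∑ i ∈ (G N).S n x, f x i - c • divLip G N n x with hD
  have hvan : ∀ p ∈ A, Dd.fn p = 0 := by
    intro p hp
    rcases p with _ | ⟨N', p⟩
    · exact Dd.fn_base
    · simp only [hD, Lip0.fn_sub, Lip0.fn_smul, Pi.sub_apply, Pi.smul_apply, fn_sum,
        smul_eq_mul, hf, testLip_fn, divLip_fn]
      by_cases h : N' = N
      · subst h
        simp only [ext_self]
        rcases p with e | ⟨j, v⟩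
        · simp only [divFn, meanF, ← hc]
          field_simp
          ring
        · have hj : j < n := hn (some ⟨N', Sum.inr ⟨j, v⟩⟩) hp
          simp only [divFn, if_pos hj, meanF, ← hc]
          field_simp
          ring
      · simp [ext, h]
  have hDn : ‖Dd‖ ≤ c * (4 / ell N + etaN N) := by
    refine (norm_sub_le _ _).trans ?_
    rw [mul_add, norm_smul, Real.norm_eq_abs, abs_of_pos hc0]
    refine add_le_add ?_ (mul_le_mul_of_nonneg_left (hdn x) hc0.le)
    exact (norm_sum_le _ _).trans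
      ((Finset.sum_le_card_nsmul _ _ _ fun i _ => hfn x i).trans (le_of_eq (by rw [nsmul_eq_mul])))
  have hdist : dist (vert G N n x) none ≤ R := by
    refine (dist_triangle _ (anch G N ((G N).a n x)) _).trans ?_
    have h1 := dist_le_of_arc G (Arc.anchor N n x)
    have h2 := dist_le_of_arc G (Arc.hub N ((G N).a n x))
    rw [dist_comm (anch G N ((G N).a n x))]
    linarith
  have hD0 : |g (vert G N n x) Dd| ≤ τ * (lam * R) * (c * (4 / ell N + etaN N)) := by
    refine (hA _ Dd hvan).trans ?_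
    exact mul_le_mul (mul_le_mul_of_nonneg_left (mul_le_mul_of_nonneg_left hdist hlam0) hτ0.le) hDn
      (norm_nonneg _) (by positivity)
  have h1 : |g (vert G N n x) (divLip G N n x) + 1| ≤ lam * ell N * etaN N + τ * etaN N := by
    have ha := hgLip (vert G N n x) (anch G N ((G N).a n x)) (divLip G N n x)
    have hb := hgA ((G N).a n x) (divLip G N n x)
    rw [divLip_anchor] at hb
    have ha' : lam * dist (vert G N n x) (anch G N ((G N).a n x)) * ‖divLip G N n x‖
        ≤ lam * ell N * etaN N :=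
      mul_le_mul (mul_le_mul_of_nonneg_left (dist_le_of_arc G (Arc.anchor N n x)) hlam0)
        (hdn x) (norm_nonneg _) (mul_nonneg hlam0 (by linarith [le_ell N]))
    have hb' := mul_le_mul_of_nonneg_left (hdn x) hτ0.le
    rw [abs_le] at ha hb ⊢
    constructor <;> linarith
  have hsum : ∑ i ∈ (G N).S n x, g (vert G N n x) (f x i)
      = c * g (vert G N n x) (divLip G N n x) + g (vert G N n x) Dd := by
    rw [hD, map_sub, map_sum, map_smul, smul_eq_mul]; ring
  have hN1 : lam ≤ (N : ℝ) + 1 := by linarith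
  have hη := etaN_pos N
  have hl := le_ell N
  have he1 : lam * ell N * etaN N ≤ 1 / 64 := by
    have : lam * ell N * etaN N ≤ ((N : ℝ) + 1) * ell N * etaN N := by gcongr
    refine this.trans ?_
    have h2 : ((N : ℝ) + 1) * ell N * etaN N = 1 / (64 * ((N : ℝ) + 1)) := by
      unfold ell etaN; field_simp; ring
    rw [h2]
    exact one_div_le_one_div_of_le (by norm_num) (by linarith [Nat.cast_nonneg (α := ℝ) N])
  have hτR : τ * (lam * R) ≤ 1 / 64 := by
    rw [hτ, div_mul_eq_mul_div, one_mul, div_le_div_iff₀ (by positivity) (by norm_num)]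
    nlinarith
  have hτ1 : τ ≤ 1 := by
    rw [hτ, div_le_one (by positivity)]
    nlinarith
  have he2 : 4 / ell N + etaN N ≤ 1 / 2 := by
    have : 4 / ell N ≤ 1 / 4 := by
      rw [div_le_div_iff₀ (by linarith) (by norm_num)]; linarith
    linarith [etaN_le N]
  have he3 : τ * etaN N ≤ 1 / 1024 := by
    calc τ * etaN N ≤ 1 * (1 / 1024) := mul_le_mul hτ1 (etaN_le N) hη.le zero_le_one
      _ = _ := one_mul _
  have he4 : τ * (lam * R) * (c * (4 / ell N + etaN N)) ≤ c * (1 / 128) := by
    calc τ * (lam * R) * (c * (4 / ell N + etaN N)) ≤ 1 / 64 * (c * (1 / 2)) :=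
          mul_le_mul hτR (mul_le_mul_of_nonneg_left he2 hc0.le) (by positivity) (by norm_num)
      _ = _ := by ring
  rw [hsum]
  rw [abs_le] at h1 hD0 ⊢
  constructor <;> nlinarith [h1.1, h1.2, hD0.1, hD0.2]

theorem no_bap : ¬ HasBAP (freeSub (Pt G) none) := by
  classical
  rintro ⟨lam, hlam, hT⟩
  have hlam0 : 0 ≤ lam := by linarith
  obtain ⟨N, hN⟩ := exists_nat_ge lam
  letI := (G N).fE
  set R := rad N + ell N with hR
  have hR0 : 32 ≤ R := by linarith [le_rad N, le_ell N]
  set τ := 1 / (64 * (lam + 1) * R) with hτ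
  have hτ0 : 0 < τ := by positivity
  have hC : IsCompact (Set.range fun e : (G N).E => delta none (anch G N e)) :=
    (Set.finite_range _).isCompact
  obtain ⟨T, hfin, hnorm, happ⟩ := hT _ hC τ hτ0
  obtain ⟨A, hA⟩ := exists_finite_support (LinearMap.range
    (T : freeSub (Pt G) none →ₗ[ℝ] freeSub (Pt G) none)) hτ0
  obtain ⟨n, hn⟩ : ∃ n, ∀ p ∈ A, lvl G p < n :=
    ⟨A.sup (lvl G) + 1, fun p hp => Nat.lt_succ_of_le (Finset.le_sup hp)⟩
  letI := (G N).fX n
  set g : Pt G → (Lip0 (Pt G) none →L[ℝ] ℝ) :=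
    fun p => ((T (delta none p) : freeSub (Pt G) none) : Lip0 (Pt G) none →L[ℝ] ℝ) with hg
  have hgLip : ∀ p q f, |g p f - g q f| ≤ lam * dist p q * ‖f‖ := by
    intro p q f
    have h1 : g p f - g q f
        = ((T (delta none p - delta none q) : freeSub (Pt G) none) :
            Lip0 (Pt G) none →L[ℝ] ℝ) f := by
      simp [hg, map_sub]
    rw [h1, ← Real.norm_eq_abs]
    refine (ContinuousLinearMap.le_opNorm _ f).trans (mul_le_mul_of_nonneg_right ?_ (norm_nonneg f))
    exact (T.le_opNorm _).trans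
      (mul_le_mul hnorm (norm_delta_sub_le p q) (norm_nonneg _) hlam0)
  have hgnorm : ∀ p, ‖T (delta none p)‖ ≤ lam * dist p none := fun p =>
    (T.le_opNorm _).trans (mul_le_mul hnorm (norm_delta_le p) (norm_nonneg _) hlam0)
  have hgA : ∀ e f, |g (anch G N e) f - f.fn (anch G N e)| ≤ τ * ‖f‖ := by
    intro e f
    have h1 : g (anch G N e) f - f.fn (anch G N e)
        = ((T (delta none (anch G N e)) - delta none (anch G N e) : freeSub (Pt G) none) :
            Lip0 (Pt G) none →L[ℝ] ℝ) f := by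
      simp [hg]
    rw [h1, ← Real.norm_eq_abs]
    exact (ContinuousLinearMap.le_opNorm _ f).trans
      (mul_le_mul_of_nonneg_right (happ _ ⟨e, rfl⟩).le (norm_nonneg f))
  set f := testLip G N n with hf
  have hfn : ∀ x i, ‖f x i‖ ≤ 4 / ell N := fun x i => norm_lift_le G N _ _ _ _ _ _
  have hdn : ∀ x, ‖divLip G N n x‖ ≤ etaN N := fun x => norm_lift_le G N _ _ _ _ _ _
  have hvert : ∀ x, |∑ i ∈ (G N).S n x, g (vert G N n x) (f x i) + ((G N).S n x).card|
      ≤ 1 / 16 * ((G N).S n x).card :=
    fun x => vert_bound G hlam N hN hτ n g hgLip hgA A hn (fun p f hf =>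
      (hA _ ⟨delta none p, rfl⟩ f hf).trans (mul_le_mul_of_nonneg_right
        (mul_le_mul_of_nonneg_left (hgnorm p) hτ0.le) (norm_nonneg f))) x
  -- sum over all directed edges of level `n`
  set E := (univ : Finset ((G N).X n)).sigma (fun x => (G N).S n x) with hE
  have hsig : ∀ φ : ((G N).X n) → (G N).I n → ℝ,
      ∑ z ∈ E, φ z.1 z.2 = ∑ x, ∑ i ∈ (G N).S n x, φ x i := fun φ => by
    rw [hE, Finset.sum_sigma]
  have hswap : ∑ z ∈ E, g (vert G N n ((G N).flip n z.1 z.2)) (f z.1 z.2)
      = -∑ z ∈ E, g (vert G N n z.1) (f z.1 z.2) := by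
    rw [← Finset.sum_neg_distrib]
    refine Finset.sum_nbij' (fun z => ⟨(G N).flip n z.1 z.2, z.2⟩)
      (fun z => ⟨(G N).flip n z.1 z.2, z.2⟩) ?_ ?_ ?_ ?_ ?_
    · intro z hz
      exact Finset.mem_sigma.mpr
        ⟨Finset.mem_univ _, (G N).S_flip n _ _ (Finset.mem_sigma.mp hz).2⟩
    · intro z hz
      exact Finset.mem_sigma.mpr
        ⟨Finset.mem_univ _, (G N).S_flip n _ _ (Finset.mem_sigma.mp hz).2⟩
    · rintro ⟨x, i⟩ _; simp [(G N).flip_flip]
    · rintro ⟨x, i⟩ _; simp [(G N).flip_flip]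
    · rintro ⟨x, i⟩ _
      simp [hf, testLip_flip]
  have hdiff : |∑ z ∈ E, (g (vert G N n ((G N).flip n z.1 z.2)) (f z.1 z.2)
      - g (vert G N n z.1) (f z.1 z.2))| ≤ 1 / 4 * E.card := by
    refine (Finset.abs_sum_le_sum_abs _ _).trans ?_
    refine (Finset.sum_le_card_nsmul _ _ (1 / 4) fun z hz => ?_).trans
      (le_of_eq (by rw [nsmul_eq_mul]; ring))
    refine (hgLip _ _ _).trans ?_
    have hd : dist (vert G N n ((G N).flip n z.1 z.2)) (vert G N n z.1) ≤ 1 := by
      rw [dist_comm]
      exact dist_le_of_arc G (Arc.sel N n z.1 z.2 (Finset.mem_sigma.mp hz).2)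
    calc lam * dist (vert G N n ((G N).flip n z.1 z.2)) (vert G N n z.1) * ‖f z.1 z.2‖
        ≤ lam * 1 * (4 / ell N) :=
          mul_le_mul (mul_le_mul_of_nonneg_left hd hlam0) (hfn _ _) (norm_nonneg _) (by linarith)
      _ ≤ 1 / 4 := by
          rw [mul_one, mul_div_assoc', div_le_div_iff₀ (by linarith [le_ell N]) (by norm_num), ell]
          linarith
  rw [Finset.sum_sub_distrib, hswap, hsig fun x i => g (vert G N n x) (f x i)] at hdiff
  have hcardE : (E.card : ℝ) = ∑ x, (((G N).S n x).card : ℝ) := by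
    rw [hE, Finset.card_sigma]; push_cast; rfl
  have htot : |∑ x, (∑ i ∈ (G N).S n x, g (vert G N n x) (f x i) + ((G N).S n x).card)|
      ≤ 1 / 16 * (E.card : ℝ) := by
    rw [hcardE, Finset.mul_sum]
    exact (Finset.abs_sum_le_sum_abs _ _).trans (Finset.sum_le_sum fun x _ => hvert x)
  rw [Finset.sum_add_distrib, ← hcardE] at htot
  have hEpos : (0 : ℝ) < E.card := by
    rw [hcardE]
    haveI := (G N).neX n
    exact Finset.sum_pos (fun x _ => card_S_pos G N n x) Finset.univ_nonempty
  rw [abs_le] at hdiff htot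
  linarith [hdiff.1, hdiff.2, htot.1, htot.2]

/-- A countable uniformly discrete space whose free space fails the BAP. -/
theorem exists_no_bap : ∃ (M : Type) (inst : MetricSpace M) (o : M), Countable M ∧
    (∀ x y : M, x ≠ y → 1 ≤ dist x y) ∧ ¬ HasBAP (freeSub M o) :=
  let G : ∀ N : ℕ, Gadget (etaN N) := fun N => (exists_gadget (etaN_pos N)).some
  ⟨Pt G, instMetricPt G, none, countable_pt G, fun _ _ h => one_le_dist G h, no_bap G⟩

end

end Vale.Agent.P090
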