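import Vale.Agent.P090.Combin

/-!
One step of the tower: from a finite stage to a stage with one more family of points.

A stage consists of old points `O`, vertices `V`, edge classes `I` (each class is an
involution `flip · i` of the vertices), and, for a vertex `x` and a class `i`, test
functions `po x i` on old points and `pv x i` on vertices, the latter together with a
part `G x i` whose sign may later be randomised.
-/

namespace Vale.Agent.P090

noncomputable section

open Finset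
open scoped symmDiff

/-- A stage of the tower over the finite set `E` of anchors. -/
structure Stage (E : Type) where
  /-- old points -/
  O : Type
  /-- vertices -/
  V : Type
  /-- edge classes -/
  I : Type
  fO : Fintype O
  fV : Fintype V
  fI : Fintype I
  /-- anchors as old points -/
  oE : E → O
  /-- anchor of an old point -/
  aO : O → E
  /-- edges between old points -/
  adjO : O → O → Prop
  /-- anchor of a vertex -/
  a : V → E
  flip : V → I → V
  avail : V → Finset I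
  po : V → I → O → ℝ
  pv : V → I → V → ℝ
  G : V → I → V → ℝ
  kap : V → I → V → ℝ

attribute [instance] Stage.fO Stage.fV Stage.fI

namespace Stage

variable {E : Type} (base : E → E → ℝ)

/-- The invariants of a stage. -/
structure Ok (s : Stage E) (ε S η : ℝ) (A : ℕ) : Prop where
  eta_nonneg : 0 ≤ η
  eta_le_eps : η ≤ ε
  eta_le_slope : 2 * η ≤ S
  flip_flip : ∀ x i, s.flip (s.flip x i) i = x
  avail_flip : ∀ x i, i ∈ s.avail x → i ∈ s.avail (s.flip x i)
  avail_card : ∀ x, A ≤ (s.avail x).card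
  po_anti : ∀ x i p, s.po (s.flip x i) i p = -s.po x i p
  pv_anti : ∀ x i p, s.pv (s.flip x i) i p = -s.pv x i p
  G_anti : ∀ x i p, s.G (s.flip x i) i p = -s.G x i p
  kap_symm : ∀ x i p, s.kap (s.flip x i) i p = s.kap x i p
  kap_le : ∀ x i p, |s.kap x i p| ≤ 1
  G_le : ∀ x i p, |s.G x i p| ≤ 1
  po_le : ∀ x i p, |s.po x i p| ≤ 2
  pv_le : ∀ x i p, ∀ σ : ℝ, |σ| ≤ 1 → |s.pv x i p - σ * s.G x i p| ≤ 2
  slope_o : ∀ o o', s.adjO o o' → ∀ x i, |s.po x i o - s.po x i o'| ≤ S
  slope_same : ∀ p i, i ∈ s.avail p → ∀ x,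
    |(s.pv x i p - s.G x i p) - (s.pv x i (s.flip p i) - s.G x i (s.flip p i))| ≤ S
  slope_other : ∀ p i', i' ∈ s.avail p → ∀ x i, i ≠ i' → ∀ σ : ℝ, |σ| ≤ 1 →
    |(s.pv x i p - σ * s.G x i p) - (s.pv x i (s.flip p i') - σ * s.G x i (s.flip p i'))| ≤ S
  kap_slope : ∀ p i', i' ∈ s.avail p → ∀ x i,
    |s.kap x i p - s.kap x i (s.flip p i')| ≤ η
  base_slope : ∀ p i', i' ∈ s.avail p → ∀ e,
    |base e (s.a p) - base e (s.a (s.flip p i'))| ≤ η
  base_slope_o : ∀ o o', s.adjO o o' → ∀ e, |base e (s.aO o) - base e (s.aO o')| ≤ η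
  kap_base : ∀ x i p, |s.kap x i p + base (s.a x) (s.a p)| ≤ η
  mean_o : ∀ x o, |∑ i ∈ s.avail x, (s.po x i o - base (s.a x) (s.aO o))|
    ≤ ε * (s.avail x).card
  mean_v : ∀ x p, |∑ i ∈ s.avail x, (s.pv x i p - base (s.a x) (s.a p))|
    ≤ ε * (s.avail x).card
  jump : ∀ x i, s.po x i (s.oE (s.a x)) = -1
  aO_oE : ∀ e, s.aO (s.oE e) = e

variable {w q K : ℕ} [NeZero q] [NeZero K] (s : Stage E)

/-- Properties of a good family of seeds. -/
structure Good (ω : s.I → Seed w q K) (r : ℕ) (ε δ t : ℝ) : Prop where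
  count : ∀ (u : s.V) (U : Finset (Bit w q)),
    (plateau K - t) * (s.avail u).card
      ≤ ((s.avail u).filter fun c => field (ω c) U = 1).card
  mean_old : ∀ (u : s.V) (U : Finset (Bit w q)) (o : s.O),
    |∑ c ∈ (s.avail u).filter (fun c => field (ω c) U = 1), (s.po u c o - base (s.a u) (s.aO o))|
      ≤ (plateau K * ε + δ + t) * (s.avail u).card
  mean_copy : ∀ (u : s.V) (U : Finset (Bit w q)) (v : s.V),
    |∑ c ∈ (s.avail u).filter (fun c => field (ω c) U = 1),
        (s.pv u c v - s.G u c v * sgn (ω c) - base (s.a u) (s.a v))|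
      ≤ (plateau K * ε + δ + t) * (s.avail u).card
  mean_far : ∀ (u : s.V) (U : Finset (Bit w q)) (v : s.V) (U' : Finset (Bit w q)),
    r ≤ (U ∆ U').card →
    |∑ c ∈ (s.avail u).filter (fun c => field (ω c) U = 1),
        (s.pv u c v - s.G u c v * field (ω c) U' - base (s.a u) (s.a v))|
      ≤ (plateau K * ε + δ + t) * (s.avail u).card
  sign_count : ∀ u : s.V,
    (1 / 2 - t) * (s.avail u).card ≤ ((s.avail u).filter fun c => (ω c).2 = true).card
  sign_mean : ∀ (u : s.V) (o : s.O),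
    |∑ c ∈ (s.avail u).filter (fun c => (ω c).2 = true), (s.po u c o - base (s.a u) (s.aO o))|
      ≤ (ε / 2 + t) * (s.avail u).card

/-- The label of a child class. -/
def lab {D : ℕ} (ω : s.I → Seed w q K) (h : s.I → Fin D → ZMod q)
    (i : s.I × (Fin 3 → ZMod q)) : Finset (Bit w q) :=
  label (polyVal (coefs i.2 (h i.1))) (ω i.1).1.2

/-- Interpolation weight between the inherited function and the cut function. -/
def cut (r : ℕ) (W Δ : Finset (Bit w q)) : ℝ := ramp (r : ℝ) ((Δ \ W).card : ℝ)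

/-- The next stage. -/
def child {D : ℕ} (r : ℕ) (ω : s.I → Seed w q K) (h : s.I → Fin D → ZMod q) : Stage E where
  O := s.O ⊕ s.V
  V := s.V × Finset (Bit w q)
  I := s.I × (Fin 3 → ZMod q)
  fO := inferInstance
  fV := inferInstance
  fI := inferInstance
  oE e := Sum.inl (s.oE e)
  aO := Sum.elim s.aO s.a
  adjO p p' := (∃ o o', p = Sum.inl o ∧ p' = Sum.inl o' ∧ s.adjO o o') ∨
    (∃ v c, c ∈ s.avail v ∧ (ω c).2 = true ∧ p = Sum.inr v ∧ p' = Sum.inr (s.flip v c))
  a x := s.a x.1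
  flip x i := (s.flip x.1 i.1, x.2 ∆ s.lab ω h i)
  avail x := ((s.avail x.1).filter fun c => field (ω c) x.2 = 1) ×ˢ univ
  po x i := Sum.elim (s.po x.1 i.1) (fun v => s.pv x.1 i.1 v - s.G x.1 i.1 v * sgn (ω i.1))
  pv x i p :=
    (1 - cut r (s.lab ω h i) (x.2 ∆ p.2))
        * (s.pv x.1 i.1 p.1 - s.G x.1 i.1 p.1 * field (ω i.1) p.2)
      + cut r (s.lab ω h i) (x.2 ∆ p.2)
        * (s.kap x.1 i.1 p.1 * zeta (s.lab ω h i) (x.2 ∆ p.2))
  G x i p := cut r (s.lab ω h i) (x.2 ∆ p.2)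
    * (s.kap x.1 i.1 p.1 * zeta (s.lab ω h i) (x.2 ∆ p.2))
  kap x i p := s.kap x.1 i.1 p.1

end Stage

theorem abs_sgn_le {w q K : ℕ} (ω : Seed w q K) : |sgn ω| ≤ 1 := by
  unfold sgn; split_ifs <;> norm_num

namespace Stage

variable {E : Type} {base : E → E → ℝ} {s : Stage E} {ε S η : ℝ} {A : ℕ}
variable {w q K : ℕ} [NeZero q] [NeZero K]

/-- Good seeds exist as soon as the stage has many available classes. -/
theorem exists_seeds (hok : s.Ok base ε S η A) (hbase : ∀ e e', |base e e'| ≤ 1)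
    {r : ℕ} {δ t : ℝ} (hr : 0 < r) (hδ : 0 ≤ δ)
    (hrK : 16 * ((4 * K : ℕ) : ℝ) ^ 3 / r ≤ δ ^ 2)
    (hA : 0 < A) (ht : 0 ≤ t) (ht1 : t ≤ 1)
    (hnum : 8 * ((Fintype.card s.O : ℝ) + Fintype.card s.V + 1) ^ 2
        * ((2 : ℝ) ^ (2 * (w * q))) ^ 2 * Real.exp (-(t ^ 2 * A / 144)) < 1) :
    ∃ ω : s.I → Seed w q K, s.Good base ω r ε δ t := by
  classical
  let J := ((s.V × Finset (Bit w q)) × Option (s.O ⊕ (s.V ⊕ s.V × Finset (Bit w q))))
    ⊕ (s.V × Option s.O)
  let Aj : J → Finset s.I := Sum.elim (fun x => s.avail x.1.1) (fun x => s.avail x.1)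
  let f : J → s.I → Seed w q K → ℝ := fun j c ω =>
    match j with
    | Sum.inl ((_, U), none) => if field ω U = 1 then 1 else 0
    | Sum.inl ((u, U), some (Sum.inl o)) =>
        (if field ω U = 1 then 1 else 0) * (s.po u c o - base (s.a u) (s.aO o))
    | Sum.inl ((u, U), some (Sum.inr (Sum.inl v))) =>
        (if field ω U = 1 then 1 else 0) * (s.pv u c v - s.G u c v * sgn ω - base (s.a u) (s.a v))
    | Sum.inl ((u, U), some (Sum.inr (Sum.inr (v, U')))) =>
        (if field ω U = 1 then 1 else 0)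
          * (s.pv u c v - s.G u c v * field ω U' - base (s.a u) (s.a v))
    | Sum.inr (_, none) => if ω.2 = true then 1 else 0
    | Sum.inr (u, some o) =>
        (if ω.2 = true then 1 else 0) * (s.po u c o - base (s.a u) (s.aO o))
  have hite : ∀ (P : Prop) [Decidable P] (x : ℝ), |x| ≤ 3 →
      |(if P then (1 : ℝ) else 0) * x| ≤ 3 := by
    intro P _ x hx; split_ifs <;> simp [hx]
  have hf : ∀ j c ω, |f j c ω| ≤ 3 := by
    intro j c ω
    have hb := fun e e' => abs_le.mp (hbase e e')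
    rcases j with ⟨⟨u, U⟩, _ | (o | v | ⟨v, U'⟩)⟩ | ⟨u, _ | o⟩ <;> simp only [f]
    · split_ifs <;> norm_num
    · refine hite _ _ ?_
      have := abs_le.mp (hok.po_le u c o)
      have := hb (s.a u) (s.aO o)
      rw [abs_le]; constructor <;> linarith
    · refine hite _ _ ?_
      have := abs_le.mp (hok.pv_le u c v _ (abs_sgn_le ω))
      have := hb (s.a u) (s.a v)
      rw [abs_le]; constructor <;> nlinarith
    · refine hite _ _ ?_
      have := abs_le.mp (hok.pv_le u c v _ (abs_field_le ω U'))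
      have := hb (s.a u) (s.a v)
      rw [abs_le]; constructor <;> nlinarith
    · split_ifs <;> norm_num
    · refine hite _ _ ?_
      have := abs_le.mp (hok.po_le u c o)
      have := hb (s.a u) (s.aO o)
      rw [abs_le]; constructor <;> linarith
  have hcard : (Fintype.card J : ℝ)
      ≤ 4 * ((Fintype.card s.O : ℝ) + Fintype.card s.V + 1) ^ 2
        * ((2 : ℝ) ^ (2 * (w * q))) ^ 2 := by
    have hP : (Fintype.card (Finset (Bit w q)) : ℝ) = (2 : ℝ) ^ (2 * (w * q)) := by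
      simp [mul_comm]
    have hP1 : (1 : ℝ) ≤ (2 : ℝ) ^ (2 * (w * q)) := one_le_pow₀ (by norm_num)
    simp only [J, Fintype.card_sum, Fintype.card_prod, Fintype.card_option]
    push_cast
    rw [hP]
    generalize (2 : ℝ) ^ (2 * (w * q)) = P at hP1
    have hO : (0 : ℝ) ≤ Fintype.card s.O := Nat.cast_nonneg _
    have hV : (0 : ℝ) ≤ Fintype.card s.V := Nat.cast_nonneg _
    generalize (Fintype.card s.O : ℝ) = a at hO
    generalize (Fintype.card s.V : ℝ) = b at hV
    have hP2 : P ≤ P ^ 2 := by nlinarith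
    have h1 : b * P * (a + (b + b * P) + 1) ≤ 2 * (a + b + 1) ^ 2 * P ^ 2 := by
      have : a + (b + b * P) + 1 ≤ 2 * (a + b + 1) * P := by nlinarith
      calc b * P * (a + (b + b * P) + 1) ≤ b * P * (2 * (a + b + 1) * P) :=
            mul_le_mul_of_nonneg_left this (by positivity)
        _ ≤ _ := by
          have : b ≤ a + b + 1 := by linarith
          nlinarith [mul_le_mul_of_nonneg_right this (by positivity : 0 ≤ 2 * (a + b + 1) * P ^ 2)]
    have h2 : b * (a + 1) ≤ 2 * (a + b + 1) ^ 2 * P ^ 2 := by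
      have h3 : b * (a + 1) ≤ (a + b + 1) ^ 2 := by nlinarith
      have h4 : (1 : ℝ) ≤ P ^ 2 := by nlinarith
      nlinarith
    linarith
  obtain ⟨g, hg⟩ := exists_good Aj f (B := 3) (t := t) (n := A) (by norm_num) hf hA
    (fun j => by rcases j with x | x <;> exact hok.avail_card _)
    ht (by linarith)
    (by
      refine lt_of_le_of_lt ?_ hnum
      rw [show (16 : ℝ) * 3 ^ 2 = 144 by norm_num]
      have h0 : 0 ≤ Real.exp (-(t ^ 2 * A / 144)) := (Real.exp_pos _).le
      calc (Fintype.card J : ℝ) * (2 * Real.exp (-(t ^ 2 * A / 144)))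
          ≤ (4 * ((Fintype.card s.O : ℝ) + Fintype.card s.V + 1) ^ 2
              * ((2 : ℝ) ^ (2 * (w * q))) ^ 2) * (2 * Real.exp (-(t ^ 2 * A / 144))) :=
            mul_le_mul_of_nonneg_right hcard (by positivity)
        _ = _ := by ring)
  have hp0 : 0 ≤ plateau K := le_trans (by norm_num) (quarter_le_plateau (K := K))
  -- from a deviation bound and a bound on the averages to a bound on the sum
  have comb : ∀ (u : s.V) (F : s.I → ℝ) (M : s.I → ℝ) (x : ℝ),
      |∑ c ∈ s.avail u, F c - ∑ c ∈ s.avail u, M c| ≤ t * (s.avail u).card →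
      |∑ c ∈ s.avail u, M c| ≤ x * (s.avail u).card →
      |∑ c ∈ s.avail u, F c| ≤ (x + t) * (s.avail u).card := by
    intro u F M x h1 h2
    rw [abs_le] at h1 h2 ⊢
    constructor <;> linarith [h1.1, h1.2, h2.1, h2.2]
  refine ⟨g, ⟨?_, ?_, ?_, ?_, ?_, ?_⟩⟩
  · intro u U
    have h := abs_le.mp (hg (Sum.inl ((u, U), none)))
    simp only [f, Aj, Sum.elim_inl, avg_avail, Finset.sum_const, nsmul_eq_mul,
      Finset.sum_boole] at h
    linarith [h.1]
  · intro u U o
    have h := hg (Sum.inl ((u, U), some (Sum.inl o)))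
    simp only [f, Aj, Sum.elim_inl, avg_mul_const, avg_avail] at h
    rw [Finset.sum_filter]
    have e : ∀ c ∈ s.avail u, (if field (g c) U = 1 then s.po u c o - base (s.a u) (s.aO o) else 0)
        = (if field (g c) U = 1 then (1 : ℝ) else 0) * (s.po u c o - base (s.a u) (s.aO o)) :=
      fun c _ => by split_ifs <;> simp
    rw [Finset.sum_congr rfl e]
    refine comb u _ _ _ h ?_
    rw [← Finset.mul_sum, abs_mul, abs_of_nonneg hp0, add_mul, mul_assoc]
    have hd : 0 ≤ δ * ((s.avail u).card : ℝ) := mul_nonneg hδ (Nat.cast_nonneg _)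
    linarith [mul_le_mul_of_nonneg_left (hok.mean_o u o) hp0]
  · intro u U v
    have h := hg (Sum.inl ((u, U), some (Sum.inr (Sum.inl v))))
    simp only [f, Aj, Sum.elim_inl] at h
    have hM : ∀ c, avg (fun ω : Seed w q K => (if field ω U = 1 then (1 : ℝ) else 0)
        * (s.pv u c v - s.G u c v * sgn ω - base (s.a u) (s.a v)))
        = plateau K * (s.pv u c v - base (s.a u) (s.a v)) := by
      intro c
      rw [show (fun ω : Seed w q K => (if field ω U = 1 then (1 : ℝ) else 0)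
          * (s.pv u c v - s.G u c v * sgn ω - base (s.a u) (s.a v)))
          = fun ω : Seed w q K => (if field ω U = 1 then (1 : ℝ) else 0)
              * (s.pv u c v - base (s.a u) (s.a v))
            - ((if field ω U = 1 then (1 : ℝ) else 0) * sgn ω) * s.G u c v from
          funext fun ω => by ring,
        avg_sub, avg_mul_const, avg_mul_const, avg_avail, avg_avail_mul_sgn]
      ring
    simp only [hM] at h
    rw [Finset.sum_filter]
    have e : ∀ c ∈ s.avail u, (if field (g c) U = 1 then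
          s.pv u c v - s.G u c v * sgn (g c) - base (s.a u) (s.a v) else 0)
        = (if field (g c) U = 1 then (1 : ℝ) else 0)
            * (s.pv u c v - s.G u c v * sgn (g c) - base (s.a u) (s.a v)) :=
      fun c _ => by split_ifs <;> simp
    rw [Finset.sum_congr rfl e]
    refine comb u _ _ _ h ?_
    rw [← Finset.mul_sum, abs_mul, abs_of_nonneg hp0, add_mul, mul_assoc]
    have hd : 0 ≤ δ * ((s.avail u).card : ℝ) := mul_nonneg hδ (Nat.cast_nonneg _)
    linarith [mul_le_mul_of_nonneg_left (hok.mean_v u v) hp0]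
  · intro u U v U' hfar
    have h := hg (Sum.inl ((u, U), some (Sum.inr (Sum.inr (v, U')))))
    simp only [f, Aj, Sum.elim_inl] at h
    set γ := avg fun ω : Seed w q K => (if field ω U = 1 then (1 : ℝ) else 0) * field ω U' with hγ
    have hγb : |γ| ≤ δ := by
      have h2 : γ ^ 2 ≤ δ ^ 2 := (avg_corr_sq_le U U' hr hfar).trans hrK
      exact abs_le_of_sq_le_sq h2 hδ
    have hM : ∀ c, avg (fun ω : Seed w q K => (if field ω U = 1 then (1 : ℝ) else 0)
        * (s.pv u c v - s.G u c v * field ω U' - base (s.a u) (s.a v)))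
        = plateau K * (s.pv u c v - base (s.a u) (s.a v)) - γ * s.G u c v := by
      intro c
      rw [show (fun ω : Seed w q K => (if field ω U = 1 then (1 : ℝ) else 0)
          * (s.pv u c v - s.G u c v * field ω U' - base (s.a u) (s.a v)))
          = fun ω : Seed w q K => (if field ω U = 1 then (1 : ℝ) else 0)
              * (s.pv u c v - base (s.a u) (s.a v))
            - ((if field ω U = 1 then (1 : ℝ) else 0) * field ω U') * s.G u c v from
          funext fun ω => by ring,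
        avg_sub, avg_mul_const, avg_mul_const, avg_avail]
    simp only [hM] at h
    rw [Finset.sum_filter]
    have e : ∀ c ∈ s.avail u, (if field (g c) U = 1 then
          s.pv u c v - s.G u c v * field (g c) U' - base (s.a u) (s.a v) else 0)
        = (if field (g c) U = 1 then (1 : ℝ) else 0)
            * (s.pv u c v - s.G u c v * field (g c) U' - base (s.a u) (s.a v)) :=
      fun c _ => by split_ifs <;> simp
    rw [Finset.sum_congr rfl e]
    refine comb u _ _ _ h ?_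
    rw [Finset.sum_sub_distrib, ← Finset.mul_sum, ← Finset.mul_sum]
    have h1 : |plateau K * ∑ c ∈ s.avail u, (s.pv u c v - base (s.a u) (s.a v))|
        ≤ plateau K * (ε * (s.avail u).card) := by
      rw [abs_mul, abs_of_nonneg hp0]
      exact mul_le_mul_of_nonneg_left (hok.mean_v u v) hp0
    have h2 : |γ * ∑ c ∈ s.avail u, s.G u c v| ≤ δ * (s.avail u).card := by
      rw [abs_mul]
      refine mul_le_mul hγb ((Finset.abs_sum_le_sum_abs _ _).trans ?_) (abs_nonneg _) hδ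
      exact (Finset.sum_le_card_nsmul _ _ (1 : ℝ) fun c _ => hok.G_le u c v).trans
        (le_of_eq (by simp))
    rw [abs_le] at h1 h2 ⊢
    constructor <;> nlinarith [h1.1, h1.2, h2.1, h2.2]
  · intro u
    have h := abs_le.mp (hg (Sum.inr (u, none)))
    simp only [f, Aj, Sum.elim_inr, avg_sign, Finset.sum_const, nsmul_eq_mul,
      Finset.sum_boole] at h
    linarith [h.1]
  · intro u o
    have h := hg (Sum.inr (u, some o))
    simp only [f, Aj, Sum.elim_inr, avg_mul_const, avg_sign] at h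
    rw [Finset.sum_filter]
    have e : ∀ c ∈ s.avail u, (if (g c).2 = true then s.po u c o - base (s.a u) (s.aO o) else 0)
        = (if (g c).2 = true then (1 : ℝ) else 0) * (s.po u c o - base (s.a u) (s.aO o)) :=
      fun c _ => by split_ifs <;> simp
    rw [Finset.sum_congr rfl e]
    refine comb u _ _ _ h ?_
    rw [← Finset.mul_sum, abs_mul, abs_of_nonneg (by norm_num : (0 : ℝ) ≤ 1 / 2)]
    linarith [mul_le_mul_of_nonneg_left (hok.mean_o u o) (by norm_num : (0 : ℝ) ≤ 1 / 2)]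

/-- From a bound relative to all classes to a bound relative to the selected ones. -/
theorem ratio_le {p0 ε δ t a b x : ℝ} (hp : 1 / 4 ≤ p0) (ht : 0 ≤ t) (ht8 : t ≤ 1 / 8)
    (hδ : 0 ≤ δ) (hε : 0 ≤ ε) (hε1 : ε ≤ 1) (ha : 0 ≤ a) (hb : (p0 - t) * a ≤ b)
    (hx : x ≤ (p0 * ε + δ + t) * a) : x ≤ (ε + 8 * (δ + 2 * t)) * b := by
  have h1 : (ε + 8 * (δ + 2 * t)) * ((p0 - t) * a) ≤ (ε + 8 * (δ + 2 * t)) * b :=
    mul_le_mul_of_nonneg_left hb (by positivity)
  have h2 : p0 * ε + δ + t ≤ (ε + 8 * (δ + 2 * t)) * (p0 - t) := by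
    have h3 : 1 ≤ 8 * (p0 - t) := by linarith
    have h4 : (δ + 2 * t) * 1 ≤ (δ + 2 * t) * (8 * (p0 - t)) :=
      mul_le_mul_of_nonneg_left h3 (by positivity)
    have h5 : ε * t ≤ t := mul_le_of_le_one_left ht hε1
    nlinarith
  calc x ≤ (p0 * ε + δ + t) * a := hx
    _ ≤ (ε + 8 * (δ + 2 * t)) * (p0 - t) * a := mul_le_mul_of_nonneg_right h2 ha
    _ = (ε + 8 * (δ + 2 * t)) * ((p0 - t) * a) := by ring
    _ ≤ _ := h1

section child

variable {D r : ℕ} {ω : s.I → Seed w q K} {h : s.I → Fin D → ZMod q} {δ t : ℝ}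

theorem field_lab (i : s.I × (Fin 3 → ZMod q)) (U : Finset (Bit w q)) :
    field (ω i.1) (U ∆ s.lab ω h i) = field (ω i.1) U :=
  field_symmDiff_eq _ _ _ (label_inter_readSet _ _)

omit [NeZero K] in
theorem card_lab (i : s.I × (Fin 3 → ZMod q)) : (s.lab ω h i).card = w := card_label _ _

omit [NeZero K] in
theorem cut_symm_left (W U U' : Finset (Bit w q)) :
    cut r W ((U ∆ W) ∆ U') = cut r W (U ∆ U') := by
  rw [cut, cut, symmDiff_right_comm, symmDiff_sdiff_self']

theorem mem_child_avail {x : s.V × Finset (Bit w q)} {i : s.I × (Fin 3 → ZMod q)} :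
    i ∈ (s.child r ω h).avail x ↔ i.1 ∈ s.avail x.1 ∧ field (ω i.1) x.2 = 1 := by
  show i ∈ ((s.avail x.1).filter fun c => field (ω c) x.2 = 1) ×ˢ univ ↔ _
  simp

theorem cut_mem (W Δ : Finset (Bit w q)) : 0 ≤ cut r W Δ ∧ cut r W Δ ≤ 1 :=
  ⟨ramp_nonneg _ _, ramp_le_one _ _⟩

theorem abs_kap_zeta_le (hok : s.Ok base ε S η A) (x : s.V) (i : s.I) (p : s.V)
    (W Δ : Finset (Bit w q)) : |s.kap x i p * zeta W Δ| ≤ 1 := by
  rw [abs_mul]
  exact mul_le_one₀ (hok.kap_le x i p) (abs_nonneg _) (abs_zeta_le_one _ _)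

theorem abs_convex_le {χ a b M : ℝ} (h0 : 0 ≤ χ) (h1 : χ ≤ 1) (ha : |a| ≤ M) (hb : |b| ≤ M) :
    |(1 - χ) * a + χ * b| ≤ M := by
  rw [abs_le] at ha hb ⊢
  constructor <;> nlinarith

theorem child_slope_other (hok : s.Ok base ε S η A) (hh : Function.Injective h) [Fact q.Prime]
    (hwq : 3 + D ≤ w ∧ w ≤ q) (hr : 0 < r) :
    ∀ p i', i' ∈ (s.child r ω h).avail p → ∀ x i, i ≠ i' → ∀ σ : ℝ, |σ| ≤ 1 →
      |((s.child r ω h).pv x i p - σ * (s.child r ω h).G x i p)
        - ((s.child r ω h).pv x i ((s.child r ω h).flip p i')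
          - σ * (s.child r ω h).G x i ((s.child r ω h).flip p i'))|
        ≤ S + 2 * w / K + 4 * (3 + D) / w + 4 * w / r := by
  classical
  have hε0 : 0 ≤ ε := hok.eta_nonneg.trans hok.eta_le_eps
  have hw : 0 < w := by omega
  have hw' : (0 : ℝ) < w := by exact_mod_cast hw
  have hq' : (0 : ℝ) < q := by exact_mod_cast Nat.pos_of_ne_zero (NeZero.ne q)
  have hr' : (0 : ℝ) < r := by exact_mod_cast hr
  have hK' : (0 : ℝ) < K := by exact_mod_cast Nat.pos_of_ne_zero (NeZero.ne K)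
  rintro ⟨v, U1⟩ (i' : s.I × (Fin 3 → ZMod q)) hi' ⟨u, U⟩ (i : s.I × (Fin 3 → ZMod q)) hne σ hσ
  replace hi' := mem_child_avail.mp hi'
  simp only [child] at ⊢
  set W := s.lab ω h i
  set W' := s.lab ω h i'
  have hWc : W.card = w := card_lab _
  have hWc' : W'.card = w := card_lab _
  set χp := cut r W (U ∆ U1) with hχp
  set χq := cut r W (U ∆ (U1 ∆ W'))
  set kp := s.kap u i.1 v
  set kq := s.kap u i.1 (s.flip v i'.1)
  set zp := zeta W (U ∆ U1)
  set zq := zeta W (U ∆ (U1 ∆ W'))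
  set fp := s.pv u i.1 v - s.G u i.1 v * field (ω i.1) U1
  set fq := s.pv u i.1 (s.flip v i'.1)
    - s.G u i.1 (s.flip v i'.1) * field (ω i.1) (U1 ∆ W')
  rw [show (1 - χp) * fp + χp * (kp * zp) - σ * (χp * (kp * zp))
      - ((1 - χq) * fq + χq * (kq * zq) - σ * (χq * (kq * zq)))
      = (1 - χp) * (fp - fq) + χp * ((1 - σ) * (kp * zp) - (1 - σ) * (kq * zq))
        + (χp - χq) * ((1 - σ) * (kq * zq) - fq) by ring]
  have hχp01 := cut_mem (r := r) W (U ∆ U1)
  rw [← hχp] at hχp01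
  have hχd : |χp - χq| ≤ w / r := by
    refine (abs_ramp_sub_le hr' _ _).trans (div_le_div_of_nonneg_right ?_ hr'.le)
    rw [abs_sub_comm, ← symmDiff_assoc U]
    exact (abs_card_sdiff_symmDiff _ _ _).trans (le_of_eq (by rw [hWc']))
  have hzd : |zp - zq| ≤ 2 * (3 + D) / w := by
    rw [abs_sub_comm]
    show |zeta W (U ∆ (U1 ∆ W')) - zeta W (U ∆ U1)| ≤ _
    rw [← symmDiff_assoc U]
    refine (abs_zeta_sub_le _ _ _).trans ?_
    rw [hWc]
    refine div_le_div_of_nonneg_right (mul_le_mul_of_nonneg_left ?_ (by norm_num)) hw'.le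
    have hcoef : coefs i'.2 (h i'.1) ≠ coefs i.2 (h i.1) := fun hc =>
      hne ((Prod.ext (hh (coefs_inj hc).2) (coefs_inj hc).1).symm)
    have h3 := (card_label_inter_le (polyVal (coefs i'.2 (h i'.1))) (polyVal (coefs i.2 (h i.1)))
      (ω i'.1).1.2 (ω i.1).1.2).trans (card_agree_le hwq.2 hcoef)
    calc (((W' ∩ W).card : ℕ) : ℝ) ≤ ((3 + D : ℕ) : ℝ) := by exact_mod_cast h3
      _ = 3 + D := by push_cast; rfl
  have hkd : |kp - kq| ≤ η := hok.kap_slope v i'.1 hi'.1 u i.1
  have hσ2 : |1 - σ| ≤ 2 := (abs_sub _ _).trans (by rw [abs_one]; linarith)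
  have hBd : |(1 - σ) * (kp * zp) - (1 - σ) * (kq * zq)| ≤ 2 * η + 4 * (3 + D) / w := by
    rw [← mul_sub, abs_mul]
    have h4 : |kp * zp - kq * zq| ≤ η + 2 * (3 + D) / w := by
      rw [show kp * zp - kq * zq = kp * (zp - zq) + (kp - kq) * zq by ring]
      refine (abs_add_le _ _).trans ?_
      rw [abs_mul, abs_mul]
      have := mul_le_mul (hok.kap_le u i.1 v) hzd (abs_nonneg _) zero_le_one
      have := mul_le_mul hkd (abs_zeta_le_one W (U ∆ (U1 ∆ W'))) (abs_nonneg _) hok.eta_nonneg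
      linarith
    calc |1 - σ| * |kp * zp - kq * zq| ≤ 2 * (η + 2 * (3 + D) / w) :=
          mul_le_mul hσ2 h4 (abs_nonneg _) (by norm_num)
      _ = _ := by ring
  have hfd : |fp - fq| ≤ S + 2 * w / K := by
    by_cases hc : i.1 = i'.1
    · have e : field (ω i.1) (U1 ∆ W') = field (ω i.1) U1 := by rw [hc]; exact field_lab i' U1
      have e1 : field (ω i.1) U1 = 1 := by rw [hc]; exact hi'.2
      have h5 := hok.slope_same v i'.1 hi'.1 u
      simp only [fp, fq, e, e1, mul_one]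
      rw [hc]
      have : 0 ≤ 2 * (w : ℝ) / K := by positivity
      linarith
    · have h5 := hok.slope_other v i'.1 hi'.1 u i.1 hc (field (ω i.1) U1) (abs_field_le _ _)
      have h6 := abs_field_symmDiff (ω i.1) U1 W'
      rw [hWc'] at h6
      have h7 : |s.G u i.1 (s.flip v i'.1) * (field (ω i.1) (U1 ∆ W') - field (ω i.1) U1)|
          ≤ 2 * w / K := by
        rw [abs_mul]
        exact (mul_le_mul (hok.G_le _ _ _) h6 (abs_nonneg _) zero_le_one).trans
          (le_of_eq (one_mul _))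
      rw [abs_le] at h5 h7 ⊢
      simp only [fp, fq]
      constructor <;> nlinarith [h5.1, h5.2, h7.1, h7.2]
  have hbig : |(1 - σ) * (kq * zq) - fq| ≤ 4 := by
    have h5 : |fq| ≤ 2 := by
      simp only [fq]; rw [mul_comm]; exact hok.pv_le _ _ _ _ (abs_field_le _ _)
    have h6 : |(1 - σ) * (kq * zq)| ≤ 2 * 1 := by
      rw [abs_mul]
      exact mul_le_mul hσ2 (abs_kap_zeta_le hok _ _ _ _ _) (abs_nonneg _) (by norm_num)
    linarith [abs_sub ((1 - σ) * (kq * zq)) fq]
  refine (abs_add_le _ _).trans ?_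
  have h8 : |(χp - χq) * ((1 - σ) * (kq * zq) - fq)| ≤ 4 * w / r := by
    rw [abs_mul]
    calc _ ≤ (w : ℝ) / r * 4 := mul_le_mul hχd hbig (abs_nonneg _) (by positivity)
      _ = _ := by ring
  have h9 : |(1 - χp) * (fp - fq) + χp * ((1 - σ) * (kp * zp) - (1 - σ) * (kq * zq))|
      ≤ S + 2 * w / K + 4 * (3 + D) / w := by
    refine abs_convex_le hχp01.1 hχp01.2 (hfd.trans ?_) (hBd.trans ?_)
    · have : 0 ≤ 4 * (3 + (D : ℝ)) / w := by positivity
      linarith
    · have : 0 ≤ 2 * (w : ℝ) / K := by positivity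
      linarith [hok.eta_le_slope]
  linarith

theorem child_mean_v (hok : s.Ok base ε S η A) (hg : s.Good base ω r ε δ t)
    [Fact q.Prime] (hw : 0 < w) (hr : 0 < r)
    (hδ : 0 ≤ δ) (ht : 0 ≤ t) (ht8 : t ≤ 1 / 8) (hε1 : ε ≤ 1) :
    ∀ x p, |∑ i ∈ (s.child r ω h).avail x,
        ((s.child r ω h).pv x i p - base ((s.child r ω h).a x) ((s.child r ω h).a p))|
      ≤ (ε + 8 * (δ + 2 * t) + 3 * w / r + 4 * r / (w * q))
        * ((s.child r ω h).avail x).card := by
  classical
  have hε0 : 0 ≤ ε := hok.eta_nonneg.trans hok.eta_le_eps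
  have hw' : (0 : ℝ) < w := by exact_mod_cast hw
  have hq' : (0 : ℝ) < q := by exact_mod_cast Nat.pos_of_ne_zero (NeZero.ne q)
  have hr' : (0 : ℝ) < r := by exact_mod_cast hr
  have hp := quarter_le_plateau (K := K)
  have hsplit : ∀ (S' : Finset s.I) (F : s.I → ℝ),
      ∑ i ∈ S' ×ˢ (univ : Finset (Fin 3 → ZMod q)), F i.1 = (q : ℝ) ^ 3 * ∑ c ∈ S', F c := by
    intro S' F
    rw [Finset.sum_product]
    simp [Finset.mul_sum]
  have hcardprod : ∀ S' : Finset s.I,
      ((S' ×ˢ (univ : Finset (Fin 3 → ZMod q))).card : ℝ) = (q : ℝ) ^ 3 * S'.card := by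
    intro S'; simp [mul_comm]
  rintro ⟨u, U⟩ ⟨v, U'⟩
  set Sel := (s.avail u).filter fun c => field (ω c) U = 1 with hSel
  show |∑ i ∈ Sel ×ˢ (univ : Finset (Fin 3 → ZMod q)),
      ((1 - cut r (s.lab ω h i) (U ∆ U')) * (s.pv u i.1 v - s.G u i.1 v * field (ω i.1) U')
        + cut r (s.lab ω h i) (U ∆ U') * (s.kap u i.1 v * zeta (s.lab ω h i) (U ∆ U'))
        - base (s.a u) (s.a v))| ≤ _
  set Δ := U ∆ U' with hΔ
  set b := base (s.a u) (s.a v)
  set χ0 := ramp (r : ℝ) (Δ.card : ℝ) with hχ0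
  set aF : s.I → ℝ := fun c => s.pv u c v - s.G u c v * field (ω c) U' - b
  set bF : s.I × (Fin 3 → ZMod q) → ℝ := fun i =>
    s.kap u i.1 v * zeta (s.lab ω h i) Δ - b
  set n : ℝ := ((Sel ×ˢ (univ : Finset (Fin 3 → ZMod q))).card : ℝ) with hn
  set ε1 := ε + 8 * (δ + 2 * t) with hε1'
  have hn0 : 0 ≤ n := Nat.cast_nonneg _
  have hterm : ∀ i ∈ Sel ×ˢ (univ : Finset (Fin 3 → ZMod q)),
      |((1 - cut r (s.lab ω h i) Δ) * (s.pv u i.1 v - s.G u i.1 v * field (ω i.1) U')
        + cut r (s.lab ω h i) Δ * (s.kap u i.1 v * zeta (s.lab ω h i) Δ) - b)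
        - ((1 - χ0) * aF i.1 + χ0 * bF i)| ≤ 3 * w / r := by
    intro i _
    rw [show ((1 - cut r (s.lab ω h i) Δ) * (s.pv u i.1 v - s.G u i.1 v * field (ω i.1) U')
        + cut r (s.lab ω h i) Δ * (s.kap u i.1 v * zeta (s.lab ω h i) Δ) - b)
        - ((1 - χ0) * aF i.1 + χ0 * bF i)
        = (cut r (s.lab ω h i) Δ - χ0) * (s.kap u i.1 v * zeta (s.lab ω h i) Δ
          - (s.pv u i.1 v - s.G u i.1 v * field (ω i.1) U')) by
        simp only [aF, bF]; ring, abs_mul]
    have h1 : |cut r (s.lab ω h i) Δ - χ0| ≤ w / r := by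
      refine (abs_ramp_sub_le hr' _ _).trans (div_le_div_of_nonneg_right ?_ hr'.le)
      have h2 : ((Δ \ s.lab ω h i).card : ℝ) ≤ Δ.card := by
        exact_mod_cast Finset.card_le_card Finset.sdiff_subset
      have h3 : (Δ.card : ℝ) ≤ (Δ \ s.lab ω h i).card + (w : ℝ) := by
        have h4 := Finset.card_le_card_sdiff_add_card (s := Δ) (t := s.lab ω h i)
        rw [card_lab] at h4
        exact_mod_cast h4
      rw [abs_le]; constructor <;> linarith
    have h5 : |s.kap u i.1 v * zeta (s.lab ω h i) Δ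
        - (s.pv u i.1 v - s.G u i.1 v * field (ω i.1) U')| ≤ 3 := by
      have h6 := abs_kap_zeta_le hok u i.1 v (s.lab ω h i) Δ
      have h7 : |s.pv u i.1 v - s.G u i.1 v * field (ω i.1) U'| ≤ 2 := by
        rw [mul_comm]; exact hok.pv_le _ _ _ _ (abs_field_le _ _)
      linarith [abs_sub (s.kap u i.1 v * zeta (s.lab ω h i) Δ)
        (s.pv u i.1 v - s.G u i.1 v * field (ω i.1) U')]
    calc _ ≤ (w : ℝ) / r * 3 := mul_le_mul h1 h5 (abs_nonneg _) (by positivity)
      _ = _ := by ring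
  have hA1 : (1 - χ0) * |∑ i ∈ Sel ×ˢ (univ : Finset (Fin 3 → ZMod q)), aF i.1|
      ≤ (1 - χ0) * (ε1 * n) := by
    by_cases hfar : r ≤ Δ.card
    · refine mul_le_mul_of_nonneg_left ?_ (by linarith [ramp_le_one (r : ℝ) (Δ.card : ℝ)])
      rw [hn, hsplit, hcardprod, abs_mul, abs_of_nonneg (by positivity : (0 : ℝ) ≤ (q : ℝ) ^ 3),
        mul_left_comm]
      refine mul_le_mul_of_nonneg_left ?_ (by positivity)
      exact ratio_le hp ht ht8 hδ hε0 hε1 (Nat.cast_nonneg _) (hg.count u U)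
        (hg.mean_far u U v U' hfar)
    · have : χ0 = 1 := ramp_eq_one hr' (by exact_mod_cast (not_le.mp hfar).le)
      simp [this]
  have hB1 : χ0 * |∑ i ∈ Sel ×ˢ (univ : Finset (Fin 3 → ZMod q)), bF i|
      ≤ χ0 * ((η + 4 * r / (w * q)) * n) := by
    by_cases hnear : 2 * (r : ℝ) ≤ Δ.card
    · have : χ0 = 0 := ramp_eq_zero hr' hnear
      simp [this]
    · refine mul_le_mul_of_nonneg_left ?_ (ramp_nonneg _ _)
      have h1 : ∀ i, |bF i| ≤ η + 2 * ((Δ ∩ s.lab ω h i).card : ℝ) / w := by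
        intro i
        have hz := zeta_add_one (s.lab ω h i) Δ (by rw [card_lab]; exact hw)
        rw [card_lab] at hz
        simp only [bF]
        rw [show s.kap u i.1 v * zeta (s.lab ω h i) Δ - b
            = s.kap u i.1 v * (zeta (s.lab ω h i) Δ + 1) - (s.kap u i.1 v + b) by ring, hz]
        refine (abs_sub _ _).trans ?_
        rw [abs_mul, add_comm η]
        refine add_le_add ?_ (hok.kap_base u i.1 v)
        refine (mul_le_mul (hok.kap_le u i.1 v) (le_of_eq (abs_of_nonneg (by positivity)))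
          (abs_nonneg _) zero_le_one).trans (le_of_eq (one_mul _))
      refine (Finset.abs_sum_le_sum_abs _ _).trans ((Finset.sum_le_sum fun i _ => h1 i).trans ?_)
      rw [Finset.sum_add_distrib, Finset.sum_const, nsmul_eq_mul, add_mul, mul_comm _ η]
      refine add_le_add le_rfl ?_
      rw [← Finset.sum_div, ← Finset.mul_sum, Finset.sum_product, hn, hcardprod,
        div_le_iff₀ hw']
      have h2 : ∀ c ∈ Sel, ∑ β : Fin 3 → ZMod q, ((Δ ∩ s.lab ω h (c, β)).card : ℝ)
          ≤ 2 * r * (q : ℝ) ^ 2 := by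
        intro c _
        calc ∑ β : Fin 3 → ZMod q, ((Δ ∩ s.lab ω h (c, β)).card : ℝ)
            ≤ (Δ.card : ℝ) * (q : ℝ) ^ 2 := by
              exact_mod_cast sum_inter_label_le (h c) (ω c).1.2 Δ
          _ ≤ _ := mul_le_mul_of_nonneg_right (not_le.mp hnear).le (by positivity)
      calc 2 * ∑ c ∈ Sel, ∑ β : Fin 3 → ZMod q, ((Δ ∩ s.lab ω h (c, β)).card : ℝ)
          ≤ 2 * ((Sel.card : ℝ) * (2 * r * (q : ℝ) ^ 2)) :=
            mul_le_mul_of_nonneg_left
              ((Finset.sum_le_card_nsmul _ _ _ h2).trans (le_of_eq (nsmul_eq_mul _ _)))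
              (by norm_num)
        _ = _ := by field_simp; ring
  have hχ01 : 0 ≤ χ0 ∧ χ0 ≤ 1 := ⟨ramp_nonneg _ _, ramp_le_one _ _⟩
  have hmain : |∑ i ∈ Sel ×ˢ (univ : Finset (Fin 3 → ZMod q)),
      ((1 - χ0) * aF i.1 + χ0 * bF i)| ≤ (ε1 + 4 * r / (w * q)) * n := by
    rw [Finset.sum_add_distrib, ← Finset.mul_sum, ← Finset.mul_sum]
    refine (abs_add_le _ _).trans ?_
    rw [abs_mul, abs_mul, abs_of_nonneg hχ01.1,
      abs_of_nonneg (by linarith : (0 : ℝ) ≤ 1 - χ0)]
    have h1 : η * n ≤ ε1 * n := mul_le_mul_of_nonneg_right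
      (by rw [hε1']; linarith [hok.eta_le_eps]) hn0
    have h2 : 0 ≤ 4 * (r : ℝ) / (w * q) * n := by positivity
    nlinarith [hA1, hB1]
  have hdiff := (Finset.abs_sum_le_sum_abs _ _).trans
    ((Finset.sum_le_card_nsmul _ _ _ hterm).trans (le_of_eq (nsmul_eq_mul _ _)))
  rw [Finset.sum_sub_distrib] at hdiff
  have hfin := abs_sub_le
    (∑ i ∈ Sel ×ˢ (univ : Finset (Fin 3 → ZMod q)),
      ((1 - cut r (s.lab ω h i) Δ) * (s.pv u i.1 v - s.G u i.1 v * field (ω i.1) U')
        + cut r (s.lab ω h i) Δ * (s.kap u i.1 v * zeta (s.lab ω h i) Δ) - b))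
    (∑ i ∈ Sel ×ˢ (univ : Finset (Fin 3 → ZMod q)), ((1 - χ0) * aF i.1 + χ0 * bF i)) 0
  simp only [sub_zero] at hfin
  refine hfin.trans ?_
  have e : (ε + 8 * (δ + 2 * t) + 3 * (w : ℝ) / r + 4 * r / (w * q)) * n
      = n * (3 * w / r) + (ε1 + 4 * r / (w * q)) * n := by rw [hε1']; ring
  show _ ≤ (ε + 8 * (δ + 2 * t) + 3 * (w : ℝ) / r + 4 * r / (w * q)) * n
  rw [e]
  exact add_le_add hdiff hmain


theorem child_ok (hok : s.Ok base ε S η A) (hg : s.Good base ω r ε δ t)
    (hh : Function.Injective h) [Fact q.Prime] (hwq : 3 + D ≤ w ∧ w ≤ q) (hr : 0 < r)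
    (hδ : 0 ≤ δ) (ht : 0 ≤ t) (ht8 : t ≤ 1 / 8) (hε1 : ε ≤ 1) {A' : ℕ}
    (hA' : (A' : ℝ) ≤ (A : ℝ) * (q : ℝ) ^ 3 / 8) :
    (s.child r ω h).Ok base
      (ε + 8 * (δ + 2 * t) + 3 * w / r + 4 * r / (w * q))
      (S + 2 * w / K + 4 * (3 + D) / w + 4 * w / r) η A' := by
  classical
  have hε0 : 0 ≤ ε := hok.eta_nonneg.trans hok.eta_le_eps
  have hS0 : 0 ≤ S := by linarith [hok.eta_nonneg, hok.eta_le_slope]
  have hp := quarter_le_plateau (K := K)
  have hw : 0 < w := by omega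
  have hw' : (0 : ℝ) < w := by exact_mod_cast hw
  have hq' : (0 : ℝ) < q := by exact_mod_cast Nat.pos_of_ne_zero (NeZero.ne q)
  have hr' : (0 : ℝ) < r := by exact_mod_cast hr
  have hK' : (0 : ℝ) < K := by exact_mod_cast Nat.pos_of_ne_zero (NeZero.ne K)
  have hsplit : ∀ (S' : Finset s.I) (F : s.I → ℝ),
      ∑ i ∈ S' ×ˢ (univ : Finset (Fin 3 → ZMod q)), F i.1 = (q : ℝ) ^ 3 * ∑ c ∈ S', F c := by
    intro S' F
    rw [Finset.sum_product]
    simp [Finset.mul_sum]
  have hcardprod : ∀ S' : Finset s.I,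
      ((S' ×ˢ (univ : Finset (Fin 3 → ZMod q))).card : ℝ) = (q : ℝ) ^ 3 * S'.card := by
    intro S'; simp [mul_comm]
  refine
    { eta_nonneg := hok.eta_nonneg
      eta_le_eps := ?_
      eta_le_slope := ?_
      flip_flip := ?_
      avail_flip := ?_
      avail_card := ?_
      po_anti := ?_
      pv_anti := ?_
      G_anti := ?_
      kap_symm := ?_
      kap_le := fun x i p => hok.kap_le _ _ _
      G_le := ?_
      po_le := ?_
      pv_le := ?_
      slope_o := ?_
      slope_same := ?_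
      slope_other := ?_
      kap_slope := ?_
      base_slope := ?_
      base_slope_o := ?_
      kap_base := fun x i p => hok.kap_base _ _ _
      mean_o := ?_
      mean_v := ?_
      jump := fun x i => hok.jump _ _
      aO_oE := fun e => hok.aO_oE e }
  · have : 0 ≤ 3 * (w : ℝ) / r + 4 * r / (w * q) := by positivity
    linarith [hok.eta_le_eps]
  · have : 0 ≤ 2 * (w : ℝ) / K + 4 * (3 + D) / w + 4 * w / r := by positivity
    linarith [hok.eta_le_slope]
  · rintro ⟨u, U⟩ i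
    show (s.flip (s.flip u i.1) i.1, (U ∆ s.lab ω h i) ∆ s.lab ω h i) = (u, U)
    rw [hok.flip_flip, symmDiff_symmDiff_cancel_right]
  · rintro ⟨u, U⟩ (i : s.I × (Fin 3 → ZMod q)) hi
    have h1 := mem_child_avail.mp hi
    refine (mem_child_avail (x := (s.flip u i.1, U ∆ s.lab ω h i))).mpr
      ⟨hok.avail_flip _ _ h1.1, ?_⟩
    show field (ω i.1) (U ∆ s.lab ω h i) = 1
    rw [field_lab]; exact h1.2
  · rintro ⟨u, U⟩
    have h1 := hg.count u U
    have h2 : (A : ℝ) ≤ (s.avail u).card := by exact_mod_cast hok.avail_card u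
    have h3 : (1 / 8 : ℝ) * A ≤ (plateau K - t) * (s.avail u).card :=
      mul_le_mul (by linarith) h2 (Nat.cast_nonneg _) (by linarith)
    have h4 : (A' : ℝ) ≤ ((((s.avail u).filter fun c => field (ω c) U = 1) ×ˢ
        (univ : Finset (Fin 3 → ZMod q))).card : ℝ) := by
      rw [hcardprod]
      have : (0 : ℝ) ≤ (q : ℝ) ^ 3 := by positivity
      nlinarith
    exact_mod_cast h4
  · rintro ⟨u, U⟩ (i : s.I × (Fin 3 → ZMod q)) (o | v)
    · exact hok.po_anti _ _ _
    · show s.pv (s.flip u i.1) i.1 v - s.G (s.flip u i.1) i.1 v * sgn (ω i.1)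
        = -(s.pv u i.1 v - s.G u i.1 v * sgn (ω i.1))
      rw [hok.pv_anti, hok.G_anti]; ring
  · rintro ⟨u, U⟩ (i : s.I × (Fin 3 → ZMod q)) ⟨v, U'⟩
    simp only [child]
    rw [cut_symm_left, hok.pv_anti, hok.G_anti, hok.kap_symm, symmDiff_right_comm U, zeta_flip]
    ring
  · rintro ⟨u, U⟩ (i : s.I × (Fin 3 → ZMod q)) ⟨v, U'⟩
    simp only [child]
    rw [cut_symm_left, hok.kap_symm, symmDiff_right_comm U, zeta_flip]
    ring
  · rintro ⟨u, U⟩ (i : s.I × (Fin 3 → ZMod q)) ⟨v, U'⟩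
    exact hok.kap_symm _ _ _
  · rintro ⟨u, U⟩ (i : s.I × (Fin 3 → ZMod q)) ⟨v, U'⟩
    simp only [child]
    rw [abs_mul, abs_of_nonneg (cut_mem _ _).1]
    exact mul_le_one₀ (cut_mem _ _).2 (abs_nonneg _) (abs_kap_zeta_le hok _ _ _ _ _)
  · rintro ⟨u, U⟩ (i : s.I × (Fin 3 → ZMod q)) (o | v)
    · exact hok.po_le _ _ _
    · show |s.pv u i.1 v - s.G u i.1 v * sgn (ω i.1)| ≤ 2
      rw [mul_comm]; exact hok.pv_le _ _ _ _ (abs_sgn_le _)
  · rintro ⟨u, U⟩ (i : s.I × (Fin 3 → ZMod q)) ⟨v, U'⟩ σ hσ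
    simp only [child]
    generalize cut r (s.lab ω h i) (U ∆ U') = χ, (cut_mem (r := r) (s.lab ω h i) (U ∆ U')) = hχ
    have hkz := abs_kap_zeta_le hok u i.1 v (s.lab ω h i) (U ∆ U')
    have h1 : |s.pv u i.1 v - s.G u i.1 v * field (ω i.1) U'| ≤ 2 := by
      rw [mul_comm]; exact hok.pv_le _ _ _ _ (abs_field_le _ _)
    have h2 : |(1 - σ) * (s.kap u i.1 v * zeta (s.lab ω h i) (U ∆ U'))| ≤ 2 := by
      rw [abs_mul]
      have : |1 - σ| ≤ 2 := (abs_sub _ _).trans (by rw [abs_one]; linarith)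
      nlinarith [abs_nonneg (1 - σ), abs_nonneg (s.kap u i.1 v * zeta (s.lab ω h i) (U ∆ U'))]
    have := abs_convex_le hχ.1 hχ.2 h1 h2
    rw [show (1 - χ) * (s.pv u i.1 v - s.G u i.1 v * field (ω i.1) U')
        + χ * (s.kap u i.1 v * zeta (s.lab ω h i) (U ∆ U'))
        - σ * (χ * (s.kap u i.1 v * zeta (s.lab ω h i) (U ∆ U')))
        = (1 - χ) * (s.pv u i.1 v - s.G u i.1 v * field (ω i.1) U')
          + χ * ((1 - σ) * (s.kap u i.1 v * zeta (s.lab ω h i) (U ∆ U'))) by ring]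
    exact this
  · intro p p' hpp
    have hadd : 0 ≤ 2 * (w : ℝ) / K + 4 * (3 + D) / w + 4 * w / r := by positivity
    rcases hpp with ⟨o, o', rfl, rfl, ho⟩ | ⟨v, c', hc', hsg, rfl, rfl⟩
    · rintro ⟨u, U⟩ i
      have := hok.slope_o o o' ho u i.1
      simp only [child, Sum.elim_inl]
      linarith
    · rintro ⟨u, U⟩ i
      simp only [child, Sum.elim_inr]
      by_cases hc : i.1 = c'
      · subst hc
        have h1 : sgn (ω i.1) = 1 := by simp [sgn, hsg]
        rw [h1, mul_one, mul_one]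
        linarith [hok.slope_same v i.1 hc' u]
      · have h1 := hok.slope_other v c' hc' u i.1 hc _ (abs_sgn_le (ω i.1))
        rw [mul_comm (sgn (ω i.1)), mul_comm (sgn (ω i.1))] at h1
        linarith
  · rintro ⟨v, U1⟩ (i : s.I × (Fin 3 → ZMod q)) hi ⟨u, U⟩
    replace hi := mem_child_avail.mp hi
    simp only [child] at ⊢
    have hcut : cut r (s.lab ω h i) (U ∆ (U1 ∆ s.lab ω h i)) = cut r (s.lab ω h i) (U ∆ U1) := by
      rw [cut, cut, ← symmDiff_assoc, symmDiff_sdiff_self']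
    rw [hcut, field_lab, hi.2, mul_one, mul_one, add_sub_cancel_right, add_sub_cancel_right,
      ← mul_sub, abs_mul]
    obtain ⟨h0, h1⟩ := cut_mem (r := r) (s.lab ω h i) (U ∆ U1)
    rw [abs_of_nonneg (by linarith : (0 : ℝ) ≤ 1 - cut r (s.lab ω h i) (U ∆ U1))]
    have h2 := hok.slope_same v i.1 hi.1 u
    have hadd : 0 ≤ 2 * (w : ℝ) / K + 4 * (3 + D) / w + 4 * w / r := by positivity
    calc _ ≤ 1 * S := mul_le_mul (by linarith) h2 (abs_nonneg _) zero_le_one
      _ ≤ _ := by linarith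
  · exact child_slope_other hok hh hwq hr
  · rintro ⟨v, U1⟩ (i' : s.I × (Fin 3 → ZMod q)) hi' ⟨u, U⟩ (i : s.I × (Fin 3 → ZMod q))
    exact hok.kap_slope v i'.1 (mem_child_avail.mp hi').1 u i.1
  · rintro ⟨v, U1⟩ (i' : s.I × (Fin 3 → ZMod q)) hi' e
    exact hok.base_slope v i'.1 (mem_child_avail.mp hi').1 e
  · intro p p' hpp
    rcases hpp with ⟨o, o', rfl, rfl, ho⟩ | ⟨v, c', hc', -, rfl, rfl⟩
    · exact hok.base_slope_o o o' ho
    · exact hok.base_slope v c' hc'
  · rintro ⟨u, U⟩ p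
    set Sel := (s.avail u).filter fun c => field (ω c) U = 1 with hSel
    have hε' : ε + 8 * (δ + 2 * t) ≤ ε + 8 * (δ + 2 * t) + 3 * w / r + 4 * r / (w * q) := by
      have : 0 ≤ 3 * (w : ℝ) / r + 4 * r / (w * q) := by positivity
      linarith
    have key : ∀ F : s.I → ℝ, |∑ c ∈ Sel, F c| ≤ (plateau K * ε + δ + t) * (s.avail u).card →
        |∑ i ∈ Sel ×ˢ (univ : Finset (Fin 3 → ZMod q)), F i.1|
          ≤ (ε + 8 * (δ + 2 * t) + 3 * w / r + 4 * r / (w * q))
            * ((Sel ×ˢ (univ : Finset (Fin 3 → ZMod q))).card : ℝ) := by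
      intro F hF
      rw [hsplit, hcardprod, abs_mul, abs_of_nonneg (by positivity : (0 : ℝ) ≤ (q : ℝ) ^ 3),
        mul_left_comm]
      refine mul_le_mul_of_nonneg_left ?_ (by positivity)
      exact (ratio_le hp ht ht8 hδ hε0 hε1 (Nat.cast_nonneg _) (hg.count u U) hF).trans
        (mul_le_mul_of_nonneg_right hε' (Nat.cast_nonneg _))
    rcases p with o | v
    · exact key (fun c => s.po u c o - base (s.a u) (s.aO o)) (hg.mean_old u U o)
    · exact key (fun c => s.pv u c v - s.G u c v * sgn (ω c) - base (s.a u) (s.a v))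
        (hg.mean_copy u U v)
  · exact child_mean_v hok hg (by omega) hr hδ ht ht8 hε1
/-- The classes selected for the new points have almost exact mean on the old points. -/
theorem sign_ok (hok : s.Ok base ε S η A) (hg : s.Good base ω r ε δ t) (hA : 0 < A)
    (ht : 0 ≤ t) (ht8 : t ≤ 1 / 8) (hε1 : ε ≤ 1) (u : s.V) :
    ((s.avail u).filter fun c => (ω c).2 = true).Nonempty ∧
    ∀ o, |∑ c ∈ (s.avail u).filter (fun c => (ω c).2 = true),
        (s.po u c o - base (s.a u) (s.aO o))|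
      ≤ (ε + 16 * t) * ((s.avail u).filter fun c => (ω c).2 = true).card := by
  have hε0 : 0 ≤ ε := hok.eta_nonneg.trans hok.eta_le_eps
  have h1 := hg.sign_count u
  have h2 : (A : ℝ) ≤ (s.avail u).card := by exact_mod_cast hok.avail_card u
  have hA' : (0 : ℝ) < A := by exact_mod_cast hA
  constructor
  · rw [← Finset.card_pos]
    have : (0 : ℝ) < ((s.avail u).filter fun c => (ω c).2 = true).card := by nlinarith
    exact_mod_cast this
  · intro o
    have h3 := ratio_le (p0 := 1 / 2) (by norm_num) ht ht8 (le_refl (0 : ℝ)) hε0 hε1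
      (Nat.cast_nonneg _) h1 (x := |∑ c ∈ (s.avail u).filter (fun c => (ω c).2 = true),
        (s.po u c o - base (s.a u) (s.aO o))|) (by
          refine (hg.sign_mean u o).trans (le_of_eq ?_); ring)
    refine h3.trans (le_of_eq ?_)
    ring

theorem card_child_I : Fintype.card (s.child r ω h).I = Fintype.card s.I * q ^ 3 := by
  simp [child]

theorem card_child_OV :
    Fintype.card (s.child r ω h).O + Fintype.card (s.child r ω h).V
      = Fintype.card s.O + Fintype.card s.V + Fintype.card s.V * 2 ^ (2 * (w * q)) := by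
  simp [child, mul_comm]

end child

end Stage

end

end Vale.Agent.P090
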